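import Vale.Agent.P366Q.C.Rep
import Vale.Agent.P366Y.C.Orth

/-!
# P366Q, row ORTH on manifolds
-/

open Vale.Agent.P366 Vale.Agent.P366.Stmt Vale.Agent.P366Z

noncomputable section

namespace Vale.Agent.P366M.Y.C

theorem orth : ORTH := by
  intro n M _ g T f u x hg hT
  have h := P366Y.C.orth n (rep (ch x) g) (rep (ch x) T) (loc (ch x) f) (loc (ch x) u) (pt x)
    (hg.loc' x) (by simpa only [rep_pt] using hT)
  simpa only [normSq_pt, ip_pt, tr_pt, n1_pt, b2_pt, tv_pt, pd_pt, rep_pt] using h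

end Vale.Agent.P366M.Y.C
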