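import Vale.Agent.P366Q.C.Rep
import Vale.Agent.P366Y.C.Gb

/-!
# P366Q, row GB on manifolds: the metric of the graph
-/

open MeasureTheory Metric Filter Topology Set
open scoped ContDiff ENNReal
open Vale.Agent.P366 Vale.Agent.P366.Stmt Vale.Agent.P366Z

noncomputable section

namespace Vale.Agent.P366M.Y.C

namespace GbH

section L0

variable {n : ℕ} {M : Type} [Mf0 n M] {g : Fld n M} {φ f : M → ℝ}

theorem mat_gb (g : Fld n M) (φ f : M → ℝ) (x : M) : mat (gb g φ f) x =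
    mat g x + Matrix.vecMulVec (fun i => φ x * pd i f x) fun i => φ x * pd i f x := by
  ext i j
  change g x i j + φ x ^ 2 * pd i f x * pd j f x = g x i j + φ x * pd i f x * (φ x * pd j f x)
  ring

theorem one_le (hg : Met g) (φ f : M → ℝ) (x : M) : 1 ≤ 1 + φ x ^ 2 * ip g f f x :=
  le_add_of_nonneg_right (mul_nonneg (sq_nonneg _) (hg.ip_nonneg f x))

theorem ww_sq (hg : Met g) (φ f : M → ℝ) (x : M) :
    ww g φ f x ^ 2 = 1 + φ x ^ 2 * ip g f f x :=
  Real.sq_sqrt (zero_le_one.trans (one_le hg φ f x))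

theorem one_le_ww (hg : Met g) (φ f : M → ℝ) (x : M) : 1 ≤ ww g φ f x :=
  Real.one_le_sqrt.2 (one_le hg φ f x)

theorem g_gr (hg : Met g) (f : M → ℝ) (i : Fin n) (x : M) :
    ∑ k, g x i k * gr g f k x = pd i f x := hg.g_up_mul x i fun l => pd l f x

theorem mat_gb_pt (g : Fld n M) (φ f : M → ℝ) (x : M) : Stmt.mat
    (P366Y.C.gb (rep (ch x) g) (loc (ch x) φ) (loc (ch x) f)) (pt x) = mat (gb g φ f) x :=
  gb_pt g φ f x

theorem sqrt_det_gb (hg : Met g) (φ f : M → ℝ) (x : M) :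
    √(mat (gb g φ f) x).det = ww g φ f x * √(mat g x).det := by
  have h := P366Y.C.GbH.dens_gb (hg.loc' x) (loc (ch x) φ) (loc (ch x) f) (pt x)
  rwa [P366Z.dens, P366Z.dens, mat_gb_pt, mat_pt, ww_pt] at h

theorem up_gb (hg : Met g) (φ f : M → ℝ) (i j : Fin n) (x : M) : up (gb g φ f) i j x =
    up g i j x - φ x ^ 2 * gr g f i x * gr g f j x / ww g φ f x ^ 2 := by
  have h := P366Y.C.GbH.up_gb (hg.loc' x) (loc (ch x) φ) (loc (ch x) f) i j (pt x)
  rwa [Stmt.up, mat_gb_pt, up_pt, gr_pt, gr_pt, ww_pt, loc_pt] at h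

theorem gr_gb (hg : Met g) (φ f u : M → ℝ) (i : Fin n) (x : M) : gr (gb g φ f) u i x =
    gr g u i x - φ x ^ 2 * ip g f u x * gr g f i x / ww g φ f x ^ 2 := by
  rw [hg.ip_sy, ip_eq_gr, gr, gr, Finset.mul_sum, Finset.sum_mul, Finset.sum_div,
    ← Finset.sum_sub_distrib]
  exact Finset.sum_congr rfl fun j _ => by rw [up_gb hg]; ring

theorem ip_gb (hg : Met g) (φ f u v : M → ℝ) (x : M) : ip (gb g φ f) u v x =
    ip g u v x - φ x ^ 2 * ip g f u x * ip g f v x / ww g φ f x ^ 2 := by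
  rw [hg.ip_sy f u, ip_eq_gr _ u v, ip_eq_gr _ u v, ip_eq_gr _ u f, Finset.mul_sum, Finset.sum_mul,
    Finset.sum_div, ← Finset.sum_sub_distrib]
  exact Finset.sum_congr rfl fun j _ => by rw [gr_gb hg]; ring

theorem dv_gb (hg : Met g) (φ : M → ℝ) (hf : ∀ x, DAt f x) (X : Fin n → M → ℝ) (x : M) :
    dv (gb g φ f) X x = dv g (fun i y => ww g φ f y * X i y) x / ww g φ f x := by
  have h := P366Y.C.GbH.dv_gb (hg.loc' x) (loc (ch x) φ) (loc (ch x) f) (repV (ch x) X) (pt x)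
  rw [ww_pt, ← rep_gb (ch_mem x) g φ hf, ← loc_ww (ch_mem x) g φ hf, ← repV_smul] at h
  exact h

theorem met_gb (hg : Met g) (hφ : Smooth φ) (hf : Smooth f) : Met (gb g φ f) where
  sm e he := by
    rw [rep_gb he g φ hf.diff]
    exact (P366Y.C.GbH.met_gb (hg.rep he) (hφ.lc he) (hf.lc he)).sm
  sy x i j := by unfold gb; rw [hg.sy]; ring
  pos x := by
    rw [mat_gb]
    exact (hg.pos x).add_posSemidef (Matrix.posSemidef_vecMulVec_self_star _)

theorem sm_ww (hg : Met g) (hφ : Smooth φ) (hf : Smooth f) : Smooth (ww g φ f) :=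
  CD.sqrt (cd_const.add ((CD.pow hφ 2).mul (hg.sm_ip hf hf)))
    fun x => (one_pos.trans_le (one_le hg φ f x)).ne'

theorem sy_hh (hg : Met g) (hφ : Smooth φ) (hf : Smooth f) : Sy (hh g φ f) :=
  sy_of fun e he => by
    rw [rep_hh hg he hφ.diff hf.two]
    exact P366Y.C.GbH.sy_hh (hg.rep he) (hφ.lc he) (hf.lc he)

end L0

theorem dens_gb {n : ℕ} {M : Type} [Mf n M] {g : Fld n M} (hg : Met g) (φ f : M → ℝ) (x : M) :
    dens (gb g φ f) x = ww g φ f x * dens g x := by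
  rw [dens, dens, sqrt_det_gb hg, mul_div_assoc]

end GbH

open GbH in
theorem gb_ : GB := fun _ _ _ _ φ f hg hφ hf =>
  ⟨met_gb hg hφ hf, sm_ww hg hφ hf, sy_hh hg hφ hf, fun x => ⟨one_le_ww hg φ f x, ww_sq hg φ f x,
    dens_gb hg φ f x, fun i j => up_gb hg φ f i j x, fun u i => gr_gb hg φ f u i x,
    fun u v => ip_gb hg φ f u v x, fun X => dv_gb hg φ hf.diff X x⟩⟩

end Vale.Agent.P366M.Y.C
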