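import Vale.Agent.P366Q.C.Gb
import Vale.Agent.P366Q.C.Orth
import Vale.Agent.P366Y.C.All

/-!
# P366Q, block C on manifolds: the pointwise rows
-/

open MeasureTheory Metric Filter Topology Set
open scoped ContDiff ENNReal
open Vale.Agent.P366 Vale.Agent.P366.Stmt Vale.Agent.P366Z

noncomputable section

namespace Vale.Agent.P366M.Y.C

theorem momgr_pt {n : ℕ} {M : Type} [Mf0 n M] (g K : Fld n M) (f : M → ℝ) (x : M) :
    ∑ j, Stmt.mom (rep (ch x) g) (rep (ch x) K) j (pt x) *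
      P366Z.gr (rep (ch x) g) (loc (ch x) f) j (pt x) = ∑ j, mom g K j x * gr g f j x := by
  simp only [gr_pt]
  rfl

theorem stat : STAT := by
  intro n M _ g φ f hg hφ hf h0 x
  have he := ch_mem x
  have h := P366Y.C.stat n _ _ _ (hg.loc' x) (hφ.lc he) (hf.lc he) (fun y => h0 _) (pt x)
  rw [← rep_gb he g φ hf.diff, ← rep_hh hg he hφ.diff hf.two, momgr_pt, mu_pt, ww_pt, loc_pt] at h
  exact h

theorem dvt : DVT := by
  intro n M _ g P w f hg hP hw hf x
  have he := ch_mem x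
  have h := P366Y.C.dvt n _ _ _ _ (hg.loc' x) (hP.rep he) (hw.lc he) (hf.lc he) (pt x)
  rw [momgr_pt, b2_pt, tr_pt, ip_pt, hess_pt, loc_pt, rep_pt, ← repV_tv he g P hf.diff,
    ← repV_gr he g hf.diff, ← loc_tr he] at h
  simp only [up_pt] at h
  rw [dv, repV_smul, repV_sub, repV_smul]
  exact h

theorem kid : KID := by
  intro n M _ g K φ f T hg hK hφ hf hT h0
  have H := fun e he => P366Y.C.kid n _ _ _ _ _ (hg.rep he) (hK.rep (e := e) he) (hφ.lc he)
    (hf.lc he) (hT.lc he) fun y => h0 _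
  refine ⟨fun e he => ?_, fun x => ?_⟩
  · rw [repV_yy hg he K hφ.diff hf.two]
    exact (H e he).1
  · have he := ch_mem x
    have h := (H _ he).2 (pt x)
    rw [← rep_gb he g φ hf.diff, ← repV_yy hg he K hφ.diff hf.two, ← rep_pk hg he K hφ.diff hf.two,
      momgr_pt, mu_pt, ww_pt, loc_pt, loc_pt, normSq_pt, tr_pt, tr_pt, ip_pt] at h
    exact h

namespace RciH

theorem sy_rc {n : ℕ} {M : Type} [Mf0 n M] {g : Fld n M} (hg : Met g) : Sy (rc g) :=
  sy_of fun e he => by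
    rw [← ric_rep hg he]
    exact P366Y.C.RciH.sy_rc (hg.rep he)

end RciH

theorem rci : RCI := by
  intro n M _ g f hg hf
  refine ⟨RciH.sy_rc hg, fun x => ?_⟩
  have he := ch_mem x
  have h := (P366Y.C.rci n _ _ (hg.loc' x) (hf.lc he)).2 (pt x)
  rwa [← rep_hess hg he hf.two, ric_rep hg he, momgr_pt, b2_pt] at h

theorem rb_ : RB := by
  intro n M _ g φ f hg hφ hf h0 x
  have he := ch_mem x
  have h := P366Y.C.rb_ n _ _ _ (hg.loc' x) (hφ.lc he) (hf.lc he) (fun y => h0 _) (pt x)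
  rw [← rep_gb he g φ hf.diff, ← loc_rb hg he hφ.two hf.two, loc_pt] at h
  exact h

theorem flp : FLP := by
  intro n M _ g φ f x lam C hg hφ hf h0 hm hl hC hr
  have he := ch_mem x
  have h := P366Y.C.flp n _ _ _ (pt x) lam C (hg.loc' x) (hφ.lc he) (hf.lc he)
    (by rwa [loc_pt]) (isLocalMin_loc hm) (by rwa [loc_pt]) hC
    (by rwa [ric_rep hg he, b2_pt, ip_pt])
  rw [← loc_rb hg he hφ.two hf.two, ← rep_hess hg he hf.two, gt_pt, ww_pt, ip_pt, loc_pt,
    loc_pt] at h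
  exact h

theorem pw2 : PW2 := by
  intro n M _ g K φ f T u hn hg hK hφ hf hT hu h0
  have H := fun e he => P366Y.C.pw2 n _ _ _ _ _ _ hn (hg.rep he) (hK.rep (e := e) he) (hφ.lc he)
    (hf.lc he) (hT.lc he) (hu.lc he) fun y => h0 _
  refine ⟨fun e he => ?_, fun x lam d Λ hx hd hp hl hq => ?_⟩
  · rw [repV_zz hg he K hφ.diff hf.two T hu.diff]
    exact (H e he).1
  · have he := ch_mem x
    have h := (H _ he).2 (pt x) lam d Λ (by rwa [loc_pt]) hd hp (by rwa [loc_pt, loc_pt])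
      (by rwa [← rep_gb he g φ hf.diff, cl_pt, loc_pt])
    rw [← loc_ex hg he hK.sm φ hf.two hT.diff, ← repV_zz hg he K hφ.diff hf.two T hu.diff,
      ← rep_gb he g φ hf.diff, ww_pt, ip_pt, loc_pt, loc_pt, loc_pt] at h
    exact h

end Vale.Agent.P366M.Y.C
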