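import Vale.Agent.P366Q.C.Mass
import Vale.Agent.P366Q.Sk
import Vale.Agent.P366Y.C.Cap

/-!
# P366Q, block C on manifolds: the upper bound of `u` (row CAPB)
-/

open MeasureTheory Metric Filter Topology Set
open scoped ContDiff ENNReal
open Vale.Agent.P366 Vale.Agent.P366.Stmt Vale.Agent.P366Z

noncomputable section

namespace Vale.Agent.P366M.Y.C

/-- the integral over a ball of a preferred chart -/
theorem Eb.int_le {n : ℕ} {M : Type} [Mfs n M] {A L : ℝ} (hA : Eb M A) (G : Geo M L) {w : M → ℝ}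
    (hw : Continuous w) (w0 : ∀ x, 0 ≤ w x) {x : M} {ρ s : ℝ} (hx : ‖px x‖ ≤ ρ) (hs : s ≤ 4) :
    ∫ y in ball (pt x) s, w ((ch x).symm y) ≤ A * ∫ p in bl M (ρ + 4 * L + 1), w p := by
  have he := ch_mem x
  have i1 : IntegrableOn w (bl M (ρ + 4 * L + 1)) :=
    (hw.continuousOn.integrableOn_compact (isCompact_px M _)).mono_set
      fun p (hp : ‖px p‖ < _) => hp.le
  have sub : (ch x).symm '' ball (pt x) s ⊆ bl M (ρ + 4 * L + 1) := by
    rintro _ ⟨y, hy, rfl⟩
    have := G.px_le (ball_subset_ball hs hy)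
    have := norm_sub_norm_le (px ((ch x).symm y)) (px x)
    change ‖px _‖ < _
    linarith
  refine le_trans ?_ (mul_le_mul_of_nonneg_left (setIntegral_mono_set i1 (ae_of_all _ w0)
    sub.eventuallyLE) (by linarith [hA.one]))
  have c1 : Continuous fun y => w ((ch x).symm y) := hw.comp (cont_symm he)
  have i2 : ∀ {f : Stmt.E n → ℝ}, Continuous f → IntegrableOn f (ball (pt x) s) := fun hf =>
    (hf.continuousOn.integrableOn_compact (isCompact_closedBall _ s)).mono_set
      ball_subset_closedBall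
  rw [volume_eq, integral_image bg_met he measurableSet_ball, ← integral_const_mul]
  refine setIntegral_mono_on (i2 c1) (i2 (continuous_const.mul
    ((bg_met.rep he).sm_dens.cont.smul c1))) measurableSet_ball fun y hy => ?_
  rw [smul_eq_mul, ← mul_assoc]
  exact le_mul_of_one_le_left (w0 _) (hA.el x y (ball_subset_ball hs hy)).dens_lo

theorem capb_of (hL : L2B) : CAPB := by
  intro n M _ B k₀ h hn B1 h0
  obtain ⟨L, G⟩ := exists_geo M
  obtain ⟨A, hA⟩ := exists_eb M
  obtain ⟨r₀, r0, r1, c, c0, B', a, a0, hE⟩ := ene M G B k₀ h hn B1 h0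
  obtain ⟨C₁, hC⟩ := P366Y.C.cac n c B' 1 c0
  obtain ⟨ε, ε0, hD⟩ := P366Y.C.dg1 n C₁ 1 hn one_pos
  refine ⟨r₀, r0, fun r hr hr' ρ Θ b => ?_⟩
  have L0 := G.pos
  have s0 : 0 < L * r := by positivity
  have s1 : L * r ≤ 1 := (mul_le_mul_of_nonneg_left hr' L0.le).trans r1
  obtain ⟨C₂, C0, hL⟩ := hL n M (ρ + 4 * L + 1) hn
  set e : ℝ := a⁻¹ * (|Θ| + 4 * gam n * B * (n - 2) * Stmt.omega n * |b|) with he
  set k : ℝ := 2 + |A * (C₂ * e)| / (ε * (L * r) ^ n) with hk
  have q0 : 0 < ε * (L * r) ^ n := by positivity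
  have k2 : 2 ≤ k := le_add_of_nonneg_right (by positivity)
  have k0 : 0 < k := by linarith
  refine ⟨2 * k, fun g K f T u U lam Λ θ F R β β' H hθ hβ x hx => ?_⟩
  obtain ⟨k1, Z, hZ⟩ := hE g K f T u U lam Λ θ F r R β β' hr hr' H
  have B0 : 0 < B := by linarith
  have n3 : (3 : ℝ) ≤ n := by exact_mod_cast hn
  have g0 : 0 < gam n := div_pos (by linarith) (by linarith)
  have ω0 := P366Z.omega_pos (n := n) (by omega)
  have F1 := H.Fb 1 one_pos
  have F0 : 0 < F 1 := by
    by_contra k
    nlinarith [mul_nonneg B0.le (neg_nonneg.2 (not_lt.1 k)), F1.1]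
  have en : ∫ x, g2 u x ≤ e := by
    have a0' : 0 ≤ 4 * gam n * (n - 2) * Stmt.omega n :=
      mul_nonneg (mul_nonneg (by positivity) (by linarith)) ω0.le
    have a1 : -(B * |b|) ≤ F 1 * β := by
      nlinarith [mul_le_mul_of_nonneg_right F1.2.1 (abs_nonneg b), le_abs_self b,
        mul_le_mul_of_nonneg_left hβ F0.le]
    have a2 := mul_le_mul_of_nonneg_left a1 a0'
    rw [he, le_inv_mul_iff₀ a0]
    nlinarith [le_abs_self Θ]
  have l2 := hL u e H.smu (H.asy.tendsto hn) fun r' =>
    (setIntegral_le_integral (g2f n M u 1 β hn H.smu H.asy) (ae_of_all _ (g2_nonneg u))).trans en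
  have hx' := ch_mem x
  have su := H.smu.lc hx'
  have sv : Stmt.Smooth fun z => k⁻¹ * loc (ch x) u z := contDiff_const.mul su
  have key := hD (fun z => k⁻¹ * loc (ch x) u z) (pt x) (L * r) 1 sv s0
    (hC _ (fun i z => k⁻¹ ^ 2 * Z (ch x) i z) (pt x) (L * r) 1 sv
      (fun i => contDiff_const.mul (hZ.sm _ hx' i)) s0 one_pos le_rfl fun y hy =>
        P366Y.C.CapH.scale (inv_pos.2 k0) (hZ.st x y (ball_subset_ball (by linarith) hy))) ?_
    (pt x) (mem_ball_self (by linarith))
  · have := mul_le_mul_of_nonneg_left key k0.le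
    rw [← mul_assoc, mul_inv_cancel₀ k0.ne', loc_pt] at this
    linarith
  · have cu : Continuous fun y => max (u y - 2) 0 ^ 2 :=
      ((H.smu.cont.sub continuous_const).max continuous_const).pow 2
    have i2 : ∀ {f : Stmt.E n → ℝ}, Continuous f → IntegrableOn f (ball (pt x) (L * r)) := fun hf =>
      (hf.continuousOn.integrableOn_compact (isCompact_closedBall _ _)).mono_set
        ball_subset_closedBall
    have s2 : ∫ y in ball (pt x) (L * r), max (k⁻¹ * loc (ch x) u y - 1) 0 ^ 2 ≤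
        ∫ y in ball (pt x) (L * r), k⁻¹ * max (u ((ch x).symm y) - 2) 0 ^ 2 := by
      refine setIntegral_mono_on (i2 (((sv.cont.sub continuous_const).max continuous_const).pow 2))
        (i2 (continuous_const.mul (cu.comp (cont_symm hx')))) measurableSet_ball fun y _ => ?_
      rw [loc]
      generalize u ((ch x).symm y) = t
      have j1 : max (k⁻¹ * t - 1) 0 ≤ k⁻¹ * max (t - 2) 0 := by
        refine max_le ?_ (by positivity)
        have : k⁻¹ * t - 1 = k⁻¹ * (t - k) := by field_simp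
        rw [this]
        exact mul_le_mul_of_nonneg_left (le_max_of_le_left (by linarith)) (by positivity)
      have j2 : k⁻¹ ≤ 1 := inv_le_one_of_one_le₀ (by linarith)
      refine (pow_le_pow_left₀ (le_max_right _ _) j1 2).trans ?_
      rw [mul_pow]
      exact mul_le_mul_of_nonneg_right (by nlinarith [inv_pos.2 k0]) (sq_nonneg _)
    refine s2.trans ?_
    rw [integral_const_mul, inv_mul_le_iff₀ k0]
    have s3 := (hA.int_le G cu (fun _ => sq_nonneg _) hx (by linarith : L * r ≤ 4)).trans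
      (mul_le_mul_of_nonneg_left l2 (by linarith [hA.one]))
    have s4 : k * (ε * (L * r) ^ n) = 2 * (ε * (L * r) ^ n) + |A * (C₂ * e)| := by
      rw [hk]
      field_simp
    rw [s4]
    linarith [le_abs_self (A * (C₂ * e))]

end Vale.Agent.P366M.Y.C
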