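import Vale.Agent.P366Q.C.Defs2
import Vale.Agent.P366M.End4
import Vale.Agent.P366Y.C.Hi

/-!
# P366Q, block C on manifolds: the upper bound near infinity (row HI)
-/

open MeasureTheory Metric Filter Topology Set
open scoped ContDiff ENNReal
open Vale.Agent.P366 Vale.Agent.P366.Stmt Vale.Agent.P366Z

noncomputable section

namespace Vale.Agent.P366M.Y.C

namespace HiH

variable {n : ℕ} {M : Type} [Mfe n M] {v : M → ℝ} {a β R : ℝ}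

theorem ext (r1 : R0 M + 1 ≤ R) {p : ℝ → ℝ → ℝ → Prop}
    (h : ∀ x, R ≤ ‖px x‖ → p (v x) (lap (eu n) v x) ‖px x‖) (y : E n) (hy : R ≤ ‖y‖) :
    p (xfj Mfe.o 0 v y) (P366Z.lap (P366Z.eu n) (xfj Mfe.o 0 v) y) ‖y‖ := by
  have e : px (ye Mfe.o y : M) = y := px_ye (by linarith)
  have := h (ye Mfe.o y) (by rwa [e])
  rwa [e, lap_xfj (c := 0) (by linarith), ← xfj_eq (j := Mfe.o) (c := 0) (f := v) (y := y)
    (by linarith)] at this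

theorem back (x : M) (hx : R0 M + 1 ≤ ‖px x‖) : xfj Mfe.o 0 v (px x) = v x := by
  rw [xfj_eq (by linarith)]
  exact congrArg v (yp_px (by linarith))

/-- the lower barrier -/
theorem low (hn : 3 ≤ n) (r1 : R0 M + 1 ≤ R) (ha : 0 ≤ a) (hv : Smooth v)
    (h : ∀ x, R ≤ ‖px x‖ → 0 ≤ v x ∧ lap (eu n) v x ≤ 0) (hA : Asy v a β) (x : M)
    (hx : R < ‖px x‖) : 0 ≤ 1 * v x + a * R ^ (n - 2 : ℝ) * ‖px x‖ ^ (2 - n : ℝ) + -a := by
  have := P366Y.C.HiH.low P366Z.wmp hn (by linarith [R0_ge M]) ha (hv.xfj Mfe.o 0)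
    (ext r1 (p := fun s t _ => 0 ≤ s ∧ t ≤ 0) h) (asyE_xfj.1 (hA.asyE _)) (px x) hx
  rwa [back x (by linarith)] at this

theorem coef (hn : 3 ≤ n) (r1 : R0 M + 1 ≤ R) (ha : 0 ≤ a) (hv : Smooth v)
    (h : ∀ x, R ≤ ‖px x‖ → 0 ≤ v x ∧ lap (eu n) v x ≤ 0) (hA : Asy v a β) :
    -(a * R ^ (n - 2 : ℝ)) ≤ β :=
  P366Y.C.HiH.coef P366Z.wmp hn (by linarith [R0_ge M]) ha (hv.xfj Mfe.o 0)
    (ext r1 (p := fun s t _ => 0 ≤ s ∧ t ≤ 0) h) (asyE_xfj.1 (hA.asyE _))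

end HiH

/-- **HI** -/
theorem hi : HI := by
  intro n hn
  obtain ⟨C, hC⟩ := P366Y.C.hi n hn
  refine ⟨C, fun M _ v a β b R S r1 ha hb hβ hv h hA x hx => ?_⟩
  have := hC _ a β b R S (by linarith [R0_ge M]) ha hb hβ (hv.xfj Mfe.o 0)
    (HiH.ext r1 (p := fun s t r => 0 ≤ s ∧ t ≤ 0 ∧ |t| ≤ S * r ^ (-(n + 2) : ℝ)) h)
    (asyE_xfj.1 (hA.asyE _)) (px x) hx
  rwa [HiH.back x (by linarith [R0_ge M])] at this

end Vale.Agent.P366M.Y.C
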