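import Vale.Agent.P366Q.C.Orth
import Vale.Agent.P366Q.C.Hi
import Vale.Agent.P366Q.C.Cap

/-!
# P366Q, block C on manifolds: all rows

`gb_ stat dvt kid orth rci rb_ flp pw2 g2f hi mass floor capb_of`
-/
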