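import Vale.Agent.P366Q.C.Elb
import Vale.Agent.P366Y.C.Trans
import Vale.Agent.P366Y.C.Dg1
import Vale.Agent.P366Y.C.Cac

/-!
# P366Q, block C on manifolds: the set of the bad points is small
-/

open MeasureTheory Metric Filter Topology Set
open scoped ContDiff ENNReal
open Vale.Agent.P366 Vale.Agent.P366.Stmt Vale.Agent.P366Z

noncomputable section

namespace Vale.Agent.P366M.Y.C

namespace BadH

open P366Y.C.TransX in
/-- few points are far from the values in their neighbourhood, local form -/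
theorem transL (n : ℕ) : ∃ C > (0 : ℝ), ∀ (u : E n → ℝ) (r ε : ℝ) (N : Set (E n)), Stmt.Smooth u →
    0 < r → 0 < ε → MeasurableSet N →
    volume {x | ball x r ⊆ N ∧ ε * r ^ n < ∫ y in ball x r, (u y - u x) ^ 2} ≤
      ENNReal.ofReal (C * r ^ 2 / ε) * ∫⁻ x in N, ENNReal.ofReal (P366Y.C.g2 u x) := by
  have hV : volume (ball (0 : E n) 1) ≠ ⊤ := measure_ball_lt_top.ne
  refine ⟨(volume (ball (0 : E n) 1)).toReal + 1, by positivity, fun u r ε N hu hr hε hN => ?_⟩
  have h1 : ContDiff ℝ 1 u := hu.of_le (by simp)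
  have hg : ∀ x, P366Y.C.g2 u x = ‖fderiv ℝ u x‖ ^ 2 := fun x =>
    (P366Z.norm_fderiv_sq (h1.differentiable one_ne_zero x)).symm
  simp only [hg]
  rw [← lintegral_indicator hN]
  have mH : Measurable (N.indicator fun x => ENNReal.ofReal (‖fderiv ℝ u x‖ ^ 2)) :=
    ((h1.continuous_fderiv one_ne_zero).norm.pow 2).measurable.ennreal_ofReal.indicator hN
  generalize hH : (N.indicator fun x => ENNReal.ofReal (‖fderiv ℝ u x‖ ^ 2)) = H at mH
  have mK : Measurable fun p : E n × E n => ∫⁻ t in Ioc (0 : ℝ) 1, H (p.1 + t • p.2) :=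
    Measurable.lintegral_prod_right' (f := fun q : (E n × E n) × ℝ => H (q.1.1 + q.2 • q.1.2))
      (mH.comp (by fun_prop))
  have eK : ∀ z : E n, ∫⁻ x, ∫⁻ t in Ioc (0 : ℝ) 1, H (x + t • z) = ∫⁻ x, H x := fun z => by
    have k : Measurable fun q : E n × ℝ => H (q.1 + q.2 • z) := mH.comp (by fun_prop)
    rw [lintegral_lintegral_swap k.aemeasurable]
    simp only [lintegral_add_right_eq_self H, setLIntegral_const, Real.volume_Ioc, sub_zero,
      ENNReal.ofReal_one, mul_one]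
  have mD : Measurable fun x : E n => ∫⁻ z in ball (0 : E n) r,
      ∫⁻ t in Ioc (0 : ℝ) 1, H (x + t • z) := mK.lintegral_prod_right'
  refine (measure_mono (t := {x | ENNReal.ofReal (ε * r ^ n) ≤ ENNReal.ofReal (r ^ 2) *
    ∫⁻ z in ball (0 : E n) r, ∫⁻ t in Ioc (0 : ℝ) 1, H (x + t • z)}) fun x hx => ?_).trans
    ((meas_ge_le_lintegral_div (mD.const_mul _).aemeasurable
      (ENNReal.ofReal_pos.2 (by positivity)).ne' ENNReal.ofReal_ne_top).trans
        (ENNReal.div_le_of_le_mul ?_))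
  · refine (ENNReal.ofReal_le_ofReal (le_of_lt hx.2)).trans ?_
    have k : Continuous fun y => (u y - u x) ^ 2 := (h1.continuous.sub continuous_const).pow 2
    rw [integral_eq_lintegral_of_nonneg_ae (.of_forall fun y => sq_nonneg _)
      k.aestronglyMeasurable]
    refine ENNReal.ofReal_toReal_le.trans ?_
    have e : (fun z => x + z) ⁻¹' ball x r = ball (0 : E n) r := by
      ext z
      simp [dist_eq_norm]
    rw [← (measurePreserving_add_left volume x).setLIntegral_comp_preimage_emb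
      (measurableEmbedding_addLeft x), e, ← lintegral_const_mul' _ _ ENNReal.ofReal_ne_top]
    refine setLIntegral_mono' measurableSet_ball fun z hz => ?_
    refine (seg h1 x z (mem_ball_zero_iff.1 hz).le).trans (mul_le_mul_right
      (setLIntegral_mono' measurableSet_Ioc fun t ht => ?_) _)
    rw [← hH, indicator_of_mem (hx.1 (by
      rw [mem_ball_iff_norm, add_sub_cancel_left, norm_smul, Real.norm_of_nonneg ht.1.le]
      exact (mul_le_of_le_one_left (norm_nonneg _) ht.2).trans_lt (mem_ball_zero_iff.1 hz)))]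
  · rw [lintegral_const_mul' _ _ ENNReal.ofReal_ne_top,
      lintegral_lintegral_swap mK.aemeasurable]
    simp only [eK, setLIntegral_const]
    rw [Measure.addHaar_ball_of_pos _ _ hr, finrank_euclideanSpace_fin, mul_right_comm,
      ← ENNReal.ofReal_mul (by positivity), mul_comm (∫⁻ x, H x), ← mul_assoc, ← mul_assoc,
      ← ENNReal.ofReal_mul (by positivity), ← ENNReal.ofReal_toReal hV,
      ← ENNReal.ofReal_mul (by positivity), ENNReal.toReal_ofReal ENNReal.toReal_nonneg]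
    refine mul_le_mul_left (ENNReal.ofReal_le_ofReal ?_) _
    have e : ((volume (ball (0 : E n) 1)).toReal + 1) * r ^ 2 / ε * (ε * r ^ n) =
        r ^ 2 * r ^ n * ((volume (ball (0 : E n) 1)).toReal + 1) := by field_simp
    rw [e]
    exact mul_le_mul_of_nonneg_left (by linarith) (by positivity)

/-- the local form of the row BAD -/
theorem badL (n : ℕ) (c B k₀ h : ℝ) (hn : 3 ≤ n) (hc : 0 < c) (hh : 0 < h) : ∃ C > (0 : ℝ),
    ∀ (u : E n → ℝ) (Z : Fin n → E n → ℝ) (N : Set (E n)) (r : ℝ), Stmt.Smooth u →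
      (∀ i, Stmt.Smooth (Z i)) → 0 < r → MeasurableSet N → (∀ y ∈ N, P366Y.C.Str u Z c B r y) →
      volume {x | ball x r ⊆ N ∧ u x ≤ k₀ ∧ ∃ y ∈ ball x (r / 2), u x + h < u y} ≤
        ENNReal.ofReal (C * r ^ 2) * ∫⁻ x in N, ENNReal.ofReal (P366Y.C.g2 u x) := by
  obtain ⟨C₁, h1⟩ := P366Y.C.cac n c B k₀ hc
  obtain ⟨ε, hε, h2⟩ := P366Y.C.dg1 n C₁ h hn hh
  obtain ⟨C₂, hC₂, h3⟩ := transL n
  refine ⟨C₂ / ε, div_pos hC₂ hε, fun u Z N r hu hZ hr hN hS => ?_⟩
  rw [div_mul_eq_mul_div]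
  refine le_trans (measure_mono ?_) (h3 u r ε N hu hr hε hN)
  rintro x ⟨k1, k2, y, k3, k4⟩
  refine ⟨k1, lt_of_not_ge fun k5 => k4.not_ge (h2 u x r (u x) hu hr
    (h1 u Z x r (u x) hu hZ hr (hS x (k1 (mem_ball_self hr))).1 k2 fun y hy => hS y (k1 hy))
    (le_trans ?_ k5) y k3)⟩
  have cu : Continuous u := hu.continuous
  have i1 : ∀ {f : E n → ℝ}, Continuous f → IntegrableOn f (ball x r) := fun hf =>
    (hf.continuousOn.integrableOn_compact (isCompact_closedBall x r)).mono_set ball_subset_closedBall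
  refine setIntegral_mono (i1 (by fun_prop)) (i1 (by fun_prop)) fun z => ?_
  rcases le_total (u z - u x) 0 with k | k
  · simpa [max_eq_right k] using sq_nonneg _
  · simp [max_eq_left k]

end BadH

variable {n : ℕ} {M : Type} [Mfs n M]

/-- the part of the chart `e` which is close to the centres -/
def Nb (e : Ch n M) : Set (E n) := {y | ∃ x : M, ch x = e ∧ y ∈ ball (pt x) 4}

theorem open_nb (e : Ch n M) : IsOpen (Nb e) := by
  refine isOpen_iff_mem_nhds.2 fun y ⟨x, hx, hy⟩ => ?_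
  filter_upwards [isOpen_ball.mem_nhds hy] with z hz using ⟨x, hx, hz⟩

theorem Eb.vol_le {Λ : ℝ} (h : Eb M Λ) (x : M) {A : Set (E n)} (hA : A ⊆ Nb (ch x)) :
    volume ((ch x).symm '' A) ≤ ENNReal.ofReal Λ * volume A := by
  have m := (measurableSet_toMeasurable volume A).inter (open_nb (ch x)).measurableSet
  refine (measure_mono (image_mono (subset_inter (subset_toMeasurable volume A) hA))).trans ?_
  rw [volume_eq, vol_image bg_met (ch_mem x) m]
  refine (setLIntegral_mono' m (g := fun _ => ENNReal.ofReal Λ) fun y hy => ?_).trans ?_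
  · obtain ⟨p, hp, hy⟩ := hy.2
    exact ENNReal.ofReal_le_ofReal (hp ▸ (h.el p y hy).dens_hi)
  · rw [setLIntegral_const, ← measure_toMeasurable A]
    exact mul_le_mul_right (measure_mono inter_subset_left) _

theorem Eb.en_le {Λ : ℝ} (h : Eb M Λ) (x : M) {u : M → ℝ} (hu : Smooth u) {A : Set (E n)}
    (mA : MeasurableSet A) (hA : A ⊆ Nb (ch x)) :
    ∫⁻ y in A, ENNReal.ofReal (P366Y.C.g2 (loc (ch x) u) y) ≤
      ENNReal.ofReal (Λ ^ 2) * ∫⁻ p in (ch x).symm '' A, ENNReal.ofReal (g2 u p) := by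
  rw [volume_eq, lintegral_image bg_met (ch_mem x) mA,
    ← lintegral_const_mul' _ _ ENNReal.ofReal_ne_top]
  refine setLIntegral_mono' mA fun y hy => ?_
  obtain ⟨p, hp, hy⟩ := hA hy
  rw [← ENNReal.ofReal_mul (P366Z.dens_nonneg _ _), ← ENNReal.ofReal_mul (sq_nonneg _)]
  exact ENNReal.ofReal_le_ofReal (hp ▸ h.g2_loc hu hy)

/-- the structure of the differential inequality in the preferred charts -/
structure StM (u : M → ℝ) (Z : Ch n M → Fin n → E n → ℝ) (c B r : ℝ) : Prop where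
  sm : ∀ e ∈ At M, ∀ i, Stmt.Smooth (Z e i)
  st : ∀ x : M, ∀ y ∈ ball (pt x) 4, P366Y.C.Str (loc (ch x) u) (Z (ch x)) c B r y

/-- **row BAD** -/
theorem bad (M : Type) [Mfs n M] {L : ℝ} (G : Geo M L) (c B k₀ h : ℝ) (hn : 3 ≤ n) (hc : 0 < c)
    (hh : 0 < h) : ∃ C > (0 : ℝ), ∀ (u : M → ℝ) Z (r : ℝ), Smooth u → 0 < r → L * r ≤ 4 →
      StM u Z c B (L * r) → volume {x | u x ≤ k₀ ∧ ∃ y ∈ ball x (r / 2), u x + h < u y} ≤
        ENNReal.ofReal (C * r ^ 2) * ∫⁻ x, ENNReal.ofReal (g2 u x) := by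
  obtain ⟨Λ, hΛ⟩ := exists_eb M
  obtain ⟨C, C0, hC⟩ := BadH.badL n c B k₀ h hn hc hh
  have L0 := G.pos
  have Λ0 : 0 < Λ := one_pos.trans_le hΛ.one
  set t := (Mfs.fin (M := M)).toFinset with ht
  refine ⟨(t.card + 1) * (Λ * (C * L ^ 2 * Λ ^ 2)), by positivity, fun u Z r hu hr hL H => ?_⟩
  have Lr : 0 < L * r := by positivity
  refine (measure_mono (t := ⋃ e ∈ t, e.symm '' {y | ball y (L * r) ⊆ Nb e ∧ loc e u y ≤ k₀ ∧
    ∃ z ∈ ball y (L * r / 2), loc e u y + h < loc e u z}) ?_).trans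
    ((measure_biUnion_finset_le _ _).trans ((Finset.sum_le_card_nsmul _ _
      (ENNReal.ofReal (Λ * (C * L ^ 2 * Λ ^ 2) * r ^ 2) * ∫⁻ x, ENNReal.ofReal (g2 u x))
      fun e he => ?_).trans ?_))
  · rintro x ⟨k1, y, k2, k3⟩
    obtain ⟨z, hz, rfl⟩ := G.nb0 (x := x) (r := L * r / 2) (p := y) (by linarith)
      ((mem_ball.1 k2).trans_eq (by field_simp))
    refine mem_biUnion (show ch x ∈ (t : Set _) from (Finite.mem_toFinset _).2 ⟨x, rfl⟩)
      ⟨pt x, ⟨fun w hw => ⟨x, rfl, ball_subset_ball hL hw⟩, by rwa [loc_pt], z, hz, ?_⟩, symm_pt x⟩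
    rwa [loc_pt]
  · obtain ⟨x, rfl⟩ := (Finite.mem_toFinset _).1 he
    have he := ch_mem x
    refine (hΛ.vol_le x fun y hy => hy.1 (mem_ball_self Lr)).trans ((mul_le_mul_right
      ((hC _ _ _ _ (hu.lc he) (H.sm _ he) Lr (open_nb _).measurableSet fun y hy => ?_).trans
        (mul_le_mul_right ((hΛ.en_le x hu (open_nb _).measurableSet Subset.rfl).trans
          (mul_le_mul_right (setLIntegral_le_lintegral _ _) _)) _)) _).trans_eq ?_)
    · obtain ⟨p, hp, hy⟩ := hy
      exact hp ▸ H.st p y hy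
    · rw [← mul_assoc, ← mul_assoc, ← ENNReal.ofReal_mul Λ0.le,
        ← ENNReal.ofReal_mul (by positivity)]
      congr 2
      ring
  · rw [nsmul_eq_mul, ← mul_assoc, ← ENNReal.ofReal_natCast, ← ENNReal.ofReal_mul (by positivity)]
    refine mul_le_mul_left (ENNReal.ofReal_le_ofReal ?_) _
    have : 0 ≤ Λ * (C * L ^ 2 * Λ ^ 2) * r ^ 2 := by positivity
    nlinarith

end Vale.Agent.P366M.Y.C
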