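import Vale.Agent.P366M.Calc
import Vale.Agent.P366M.Vol
import Vale.Agent.P366Y.C.Defs2

/-!
# P366Q, block C on manifolds: the metric of a graph in a warped product (definitions, statements)
-/

open MeasureTheory Metric Filter Topology Set
open scoped ContDiff ENNReal
open Vale.Agent.P366 Vale.Agent.P366.Stmt Vale.Agent.P366Z

noncomputable section

namespace Vale.Agent.P366M.Y.C

section L0

variable {n : ℕ} {M : Type} [Mf0 n M]

/-- the metric `g + φ² df²` -/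
def gb (g : Fld n M) (φ f : M → ℝ) : Fld n M :=
  fun x i j => g x i j + φ x ^ 2 * pd i f x * pd j f x

/-- `W = √(1 + φ² |df|²)` -/
def ww (g : Fld n M) (φ f : M → ℝ) (x : M) : ℝ := √(1 + φ x ^ 2 * ip g f f x)

/-- the second fundamental form of the graph of `f` in the static spacetime -/
def hh (g : Fld n M) (φ f : M → ℝ) : Fld n M := fun x i j =>
  (φ x * hess g f x i j + pd i φ x * pd j f x + pd j φ x * pd i f x) / ww g φ f x

/-- `T (∇ u, ∇ v)` -/
def b2 (g T : Fld n M) (u v : M → ℝ) (x : M) : ℝ :=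
  ∑ i, ∑ j, T x i j * gr g u i x * gr g v j x

/-- the vector `T ∇ u` -/
def tv (g T : Fld n M) (u : M → ℝ) (i : Fin n) (x : M) : ℝ :=
  ∑ j, ∑ k, up g i j x * T x j k * gr g u k x

/-- `|T ∇ u|²` -/
def n1 (g T : Fld n M) (u : M → ℝ) (x : M) : ℝ :=
  ∑ i, ∑ j, T x i j * tv g T u i x * gr g u j x

/-- the trace of the gauge: `tr T - lam T (∇ f, ∇ f) / (1 + lam |df|²)` -/
def gt (g T : Fld n M) (f : M → ℝ) (lam : ℝ) (x : M) : ℝ :=
  tr g T x - lam * b2 g T f f x / (1 + lam * ip g f f x)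

/-- `P = h - K` -/
def pk (g K : Fld n M) (φ f : M → ℝ) : Fld n M := fun x i j => hh g φ f x i j - K x i j

/-- the vector field `φ² (P ∇ f - (tr P) ∇ f + T ∇ f)` -/
def yy (g K : Fld n M) (φ f T : M → ℝ) (i : Fin n) (x : M) : ℝ :=
  φ x ^ 2 * (tv g (pk g K φ f) f i x + (T x - tr g (pk g K φ f) x) * gr g f i x)

/-- the defect of the gauge -/
def er (g K : Fld n M) (φ f T : M → ℝ) (lam : ℝ) (x : M) : ℝ :=
  φ x / ww g φ f x * gt g (hess g f) f lam x - gt g K f lam x - T x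

/-- the vector field of the test -/
def zz (g K : Fld n M) (φ f T u : M → ℝ) (i : Fin n) (x : M) : ℝ :=
  4 * gam n * φ x * u x * ww g φ f x * gr (gb g φ f) u i x + 2 * u x ^ 2 * yy g K φ f T i x

/-- a smooth symmetric tensor -/
structure Sy (K : Fld n M) : Prop where
  sm : SmT K
  sy : ∀ x i j, K x i j = K x j i

/-- the Ricci tensor -/
abbrev rc (g : Fld n M) : Fld n M := ric g

/-- the scalar curvature of `gb` without third derivatives -/
def rb (g : Fld n M) (φ f : M → ℝ) (x : M) : ℝ :=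
  scal g x + ((φ x * lap g f x + 2 * ip g φ f x) ^ 2 - φ x ^ 2 * normSq g (hess g f) x -
      4 * φ x * b2 g (hess g f) φ f x - 2 * ip g φ φ x * ip g f f x - 2 * ip g φ f x ^ 2) /
        ww g φ f x ^ 2 -
    2 * φ x * (φ x * b2 g (rc g) f f x + ip g f f x * lap g φ x - b2 g (hess g φ) f f x) /
      ww g φ f x ^ 2 -
    2 * φ x ^ 2 * (φ x * ip g f f x * (lap g f x * ip g φ f x - 2 * b2 g (hess g f) φ f x) +
      φ x ^ 2 * (lap g f x * b2 g (hess g f) f f x - n1 g (hess g f) f x) +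
      ip g f f x * (ip g φ f x ^ 2 - ip g f f x * ip g φ φ x) +
      φ x * ip g φ f x * b2 g (hess g f) f f x) / ww g φ f x ^ 4

end L0

/-! ### block C -/

/-- **GB**: the metric `gb` -/
def GB : Prop := ∀ (n : ℕ) (M : Type) [Mf n M] (g : Fld n M) (φ f : M → ℝ), Met g → Smooth φ →
  Smooth f → Met (gb g φ f) ∧ Smooth (ww g φ f) ∧ Sy (hh g φ f) ∧ ∀ x, 1 ≤ ww g φ f x ∧
    ww g φ f x ^ 2 = 1 + φ x ^ 2 * ip g f f x ∧ dens (gb g φ f) x = ww g φ f x * dens g x ∧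
    (∀ i j, up (gb g φ f) i j x =
      up g i j x - φ x ^ 2 * gr g f i x * gr g f j x / ww g φ f x ^ 2) ∧
    (∀ u i, gr (gb g φ f) u i x =
      gr g u i x - φ x ^ 2 * ip g f u x * gr g f i x / ww g φ f x ^ 2) ∧
    (∀ u v, ip (gb g φ f) u v x =
      ip g u v x - φ x ^ 2 * ip g f u x * ip g f v x / ww g φ f x ^ 2) ∧
    ∀ X, dv (gb g φ f) X x = dv g (fun i y => ww g φ f y * X i y) x / ww g φ f x

/-- **STAT**: the constraint equations of the graph in the static spacetime -/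
def STAT : Prop := ∀ (n : ℕ) (M : Type) [Mf0 n M] (g : Fld n M) (φ f : M → ℝ), Met g → Smooth φ →
  Smooth f → (∀ x, 0 < φ x) → ∀ x, scal (gb g φ f) x = 2 * mu g (hh g φ f) x -
    2 * (φ x / ww g φ f x) * ∑ j, mom g (hh g φ f) j x * gr g f j x

/-- **DVT**: the divergence of `(P - (tr P) g) X` for `X = w ∇ f` -/
def DVT : Prop := ∀ (n : ℕ) (M : Type) [Mf0 n M] (g P : Fld n M) (w f : M → ℝ), Met g → Sy P →
  Smooth w → Smooth f →
  ∀ x, dv g (fun i y => w y * (tv g P f i y - tr g P y * gr g f i y)) x =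
    w x * ∑ j, mom g P j x * gr g f j x + (b2 g P w f x - tr g P x * ip g w f x) +
      w x * (∑ i, ∑ j, ∑ k, ∑ l, up g i k x * up g j l x * P x i j * hess g f x k l -
        tr g P x * lap g f x)

/-- **KID**: the identity in divergence form -/
def KID : Prop := ∀ (n : ℕ) (M : Type) [Mf0 n M] (g K : Fld n M) (φ f T : M → ℝ), Met g → Sy K →
  Smooth φ → Smooth f → Smooth T → (∀ x, 0 < φ x) → CV ∞ (yy g K φ f T) ∧ ∀ x,
    φ x * ww g φ f x * scal (gb g φ f) x + 2 * dv g (yy g K φ f T) x =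
      2 * (φ x * ww g φ f x * mu g K x - φ x ^ 2 * ∑ j, mom g K j x * gr g f j x) +
        φ x * ww g φ f x * (normSq g (pk g K φ f) x - tr g (pk g K φ f) x ^ 2 +
          2 * T x * (tr g (pk g K φ f) x + tr g K x)) + 2 * φ x ^ 2 * ip g T f x

/-- **ORTH**: the splitting of a symmetric tensor along `∇ f` -/
def ORTH : Prop := ∀ (n : ℕ) (M : Type) [Mf0 n M] (g T : Fld n M) (f u : M → ℝ) (x : M), Met g →
  (∀ i j, T x i j = T x j i) → 0 ≤ normSq g T x ∧ ip g f u x ^ 2 ≤ ip g f f x * ip g u u x ∧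
    tr g T x ^ 2 ≤ n * normSq g T x ∧ n1 g T f x ≤ normSq g T x * ip g f f x ∧
    b2 g T u f x ^ 2 ≤ n1 g T f x * ip g u u x ∧ b2 g T u f x = ∑ i, pd i u x * tv g T f i x ∧
    n1 g T f x = ∑ i, ∑ j, g x i j * tv g T f i x * tv g T f j x ∧
    2 * n1 g T f x * ip g f f x - b2 g T f f x ^ 2 ≤ normSq g T x * ip g f f x ^ 2 ∧
    (ip g f f x * b2 g T u f x - b2 g T f f x * ip g f u x) ^ 2 ≤
      (ip g f f x * n1 g T f x - b2 g T f f x ^ 2) * (ip g f f x * ip g u u x - ip g f u x ^ 2)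

/-- **RCI**: the divergence of the Hessian -/
def RCI : Prop := ∀ (n : ℕ) (M : Type) [Mf0 n M] (g : Fld n M) (f : M → ℝ), Met g → Smooth f →
  Sy (rc g) ∧ ∀ x, ∑ j, mom g (hess g f) j x * gr g f j x = b2 g (rc g) f f x

/-- **RB**: the formula for the scalar curvature of `gb` -/
def RB : Prop := ∀ (n : ℕ) (M : Type) [Mf0 n M] (g : Fld n M) (φ f : M → ℝ), Met g → Smooth φ →
  Smooth f → (∀ x, 0 < φ x) → ∀ x, scal (gb g φ f) x = rb g φ f x

/-- **FLP**: the scalar curvature at a minimum of `φ` -/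
def FLP : Prop := ∀ (n : ℕ) (M : Type) [Mf0 n M] (g : Fld n M) (φ f : M → ℝ) (x : M) (lam C : ℝ),
  Met g → Smooth φ → Smooth f → 0 < φ x → IsLocalMin φ x → φ x ^ 2 ≤ lam → 0 ≤ C →
  -(C * ip g f f x) ≤ b2 g (rc g) f f x →
  rb g φ f x ≤ scal g x + 2 * C + (1 + lam * ip g f f x) / ww g φ f x ^ 2 *
    (φ x / ww g φ f x * gt g (hess g f) f lam x) ^ 2

/-! ### block D: tools -/

section L1

variable {n : ℕ} {M : Type} [Mf n M]

/-- the squared length of the gradient in the background metric -/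
def g2 (u : M → ℝ) (x : M) : ℝ := ip bg u u x

/-- the bounds of the metric at a point, in the preferred chart -/
structure El (g : Fld n M) (Λ : ℝ) (x : M) : Prop where
  g_hi : ∀ ξ : Fin n → ℝ, ∑ i, ∑ j, g x i j * ξ i * ξ j ≤ Λ * ∑ i, ξ i ^ 2
  g_lo : ∀ ξ : Fin n → ℝ, ∑ i, ξ i ^ 2 ≤ Λ * ∑ i, ∑ j, g x i j * ξ i * ξ j
  up_hi : ∀ ξ : Fin n → ℝ, ∑ i, ∑ j, up g i j x * ξ i * ξ j ≤ Λ * ∑ i, ξ i ^ 2
  up_lo : ∀ ξ : Fin n → ℝ, ∑ i, ξ i ^ 2 ≤ Λ * ∑ i, ∑ j, up g i j x * ξ i * ξ j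
  dens_hi : dens g x ≤ Λ
  dens_lo : 1 ≤ Λ * dens g x

end L1

end Vale.Agent.P366M.Y.C
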