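import Vale.Agent.P366Q.C.Defs

/-!
# P366Q, block C on manifolds: the test of the equation (statements)
-/

open MeasureTheory Metric Filter Topology Set
open scoped ContDiff ENNReal
open Vale.Agent.P366 Vale.Agent.P366.Stmt Vale.Agent.P366Z

noncomputable section

namespace Vale.Agent.P366M.Y.C

/-- the terms of order zero in the divergence of `zz` -/
def ex {n : ℕ} {M : Type} [Mf0 n M] (g K : Fld n M) (φ f T u : M → ℝ) (lam Λ : ℝ) (x : M) : ℝ :=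
  φ x * ww g φ f x * u x ^ 2 * (2 * mu g K x + T x ^ 2 + 2 * T x * tr g K x -
      2 * (1 + lam * ip g f f x) * er g K φ f T lam x ^ 2 - Λ) +
    2 * u x ^ 2 * φ x ^ 2 * (ip g T f x - ∑ j, mom g K j x * gr g f j x)

/-- **PW2**: the pointwise inequality for the vector field of the test -/
def PW2 : Prop := ∀ (n : ℕ) (M : Type) [Mf0 n M] (g K : Fld n M) (φ f T u : M → ℝ), 3 ≤ n →
  Met g → Sy K → Smooth φ → Smooth f → Smooth T → Smooth u → (∀ x, 0 < φ x) →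
  CV ∞ (zz g K φ f T u) ∧
  ∀ (x : M) (lam d Λ : ℝ), 0 < u x → 0 ≤ d → (∀ i, pd i φ x = d * pd i u x) →
    4 * φ x * (φ x + u x * d) ≤ lam → cl (gb g φ f) u x = Λ * u x →
    ex g K φ f T u lam Λ x + 2 * (φ x + u x * d) * ww g φ f x * ip (gb g φ f) u u x ≤
      dv g (zz g K φ f T u) x

/-- **G2F**: the energy is finite -/
def G2F : Prop := ∀ (n : ℕ) (M : Type) [Mfe n M] (u : M → ℝ) (a β : ℝ), 3 ≤ n → Smooth u →
  Asy u a β → Integrable (g2 u)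

/-- **HI**: the upper bound for positive superharmonic functions near infinity -/
def HI : Prop := ∀ n : ℕ, 3 ≤ n → ∃ C : ℝ, ∀ (M : Type) [Mfe n M] (v : M → ℝ) (a β b R S : ℝ),
  R0 M + 1 ≤ R → 0 ≤ a → 0 ≤ b → β ≤ b → Smooth v →
  (∀ x, R ≤ ‖px x‖ → 0 ≤ v x ∧ lap (eu n) v x ≤ 0 ∧
    |lap (eu n) v x| ≤ S * ‖px x‖ ^ (-(n + 2) : ℝ)) → Asy v a β →
  ∀ x, 4 * R ≤ ‖px x‖ → v x ≤ C * (a + b * ‖px x‖ ^ (2 - n : ℝ) + S)

/-- the hypotheses of the test; `r` is the small scale -/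
structure Tst {n : ℕ} {M : Type} [Mfe n M] (g K : Fld n M) (f T u U lam Λ θ : M → ℝ) (F : ℝ → ℝ)
    (B k₀ h r R β β' : ℝ) : Prop where
  met : Met g
  sy : Sy K
  smf : Smooth f
  smT : Smooth T
  smu : Smooth u
  smU : Smooth U
  smF : ContDiff ℝ ∞ F
  u0 : ∀ x, 0 < u x
  U0 : ∀ x, 0 < U x
  el : ∀ x, El g B x
  Fb : ∀ t > (0 : ℝ), 1 ≤ B * F t ∧ F t ≤ B ∧ 0 ≤ deriv F t ∧ t * deriv F t ≤ B
  df : ∀ x, ip g f f x ≤ B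
  d2f : ∀ x, normSq g (hess g f) x ≤ B / r ^ 2
  Kb : ∀ x, normSq g K x ≤ B
  Tb : ∀ x, |T x| ≤ B
  lam0 : ∀ x, 4 * F (u x) * (F (u x) + u x * deriv F (u x)) ≤ lam x
  eqn : ∀ x, cl (gb g (fun y => F (u y)) f) u x = Λ x * u x
  all : ∀ x, -(B * u x ^ 2) ≤ ex g K (fun y => F (u y)) f T u (lam x) (Λ x) x
  good : ∀ x, (k₀ < u x ∨ ∀ y ∈ ball x (r / 2), u y ≤ u x + h) →
    -θ x ≤ dens g x * ex g K (fun y => F (u y)) f T u (lam x) (Λ x) x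
  int : Integrable θ
  θ0 : ∀ x, 0 ≤ θ x
  far : ∀ x, R ≤ ‖px x‖ → g x = cf U (eu n) x ∧ f x = 0
  asyU : Asy U 1 β'
  asy : Asy u 1 β

/-- **MASS**: the output of the test -/
def MASS : Prop := ∀ (n : ℕ) (M : Type) [Mfe n M] (B k₀ h : ℝ), 3 ≤ n → 1 ≤ B → 0 < h →
  ∃ r₀ > (0 : ℝ), ∀ (g K : Fld n M) (f T u U lam Λ θ : M → ℝ) (F : ℝ → ℝ) (r R β β' : ℝ), 0 < r →
    r ≤ r₀ → Tst g K f T u U lam Λ θ F B k₀ h r R β β' →
    4 * gam n * F 1 * (n - 2) * omega n * β ≤ ∫ x, θ x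

/-- **CAPB**: the upper bound of `u` -/
def CAPB : Prop := ∀ (n : ℕ) (M : Type) [Mfe n M] (B k₀ h : ℝ), 3 ≤ n → 1 ≤ B → 0 < h →
  ∃ r₀ > (0 : ℝ), ∀ r : ℝ, 0 < r → r ≤ r₀ → ∀ ρ Θ b : ℝ, ∃ um : ℝ,
    ∀ (g K : Fld n M) (f T u U lam Λ θ : M → ℝ) (F : ℝ → ℝ) (R β β' : ℝ),
      Tst g K f T u U lam Λ θ F B k₀ h r R β β' → ∫ x, θ x ≤ Θ → -b ≤ β →
      ∀ x, ‖px x‖ ≤ ρ → u x ≤ um

/-- **FLOOR**: the lower bound of `u` -/
def FLOOR : Prop := ∀ (n : ℕ) (M : Type) [Mfe n M] (g : Fld n M) (f u Λ : M → ℝ) (F : ℝ → ℝ)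
  (a β : ℝ), 3 ≤ n →
  Met g → Smooth f → Smooth u → ContDiff ℝ ∞ F → Monotone F → (∀ t, 0 < F t) → (∀ x, 0 < u x) →
  Asy u 1 β → a < 1 → (∀ x, cl (gb g (fun y => F (u y)) f) u x = Λ x * u x) →
  (∀ x, u x < a → ∃ lam C : ℝ, F (u x) ^ 2 ≤ lam ∧ 0 ≤ C ∧
    -(C * ip g f f x) ≤ b2 g (rc g) f f x ∧ scal g x + 2 * C + (1 + lam * ip g f f x) /
      ww g (fun y => F (u y)) f x ^ 2 * (F (u x) / ww g (fun y => F (u y)) f x *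
        gt g (hess g f) f lam x) ^ 2 < Λ x) →
  ∀ x, a ≤ u x

end Vale.Agent.P366M.Y.C
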