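import Vale.Agent.P366Q.C.Rep
import Vale.Agent.P366M.End2
import Vale.Agent.P366M.Ug

/-!
# P366Q, block C on manifolds: uniform ellipticity in the balls of the preferred charts
-/

open MeasureTheory Metric Filter Topology Set Matrix
open scoped ContDiff ENNReal
open Vale.Agent.P366 Vale.Agent.P366.Stmt Vale.Agent.P366Z

noncomputable section

namespace Vale.Agent.P366M.Y.C

section L0

variable {n : ℕ} {M : Type} [Mf0 n M] {e : Ch n M}

theorem ex_vec (he : e ∈ At M) (y : E n) (ξ : Fin n → ℝ) : ∃ η : Fin n → ℝ, ∀ T : Fld n M,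
    ∑ i, ∑ j, rep e T y i j * ξ i * ξ j = ∑ i, ∑ j, T (e.symm y) i j * η i * η j := by
  refine ⟨J e y *ᵥ ξ, fun T => ?_⟩
  have h : ∀ i, repV e (fun k _ => (J e y *ᵥ ξ) k) i y = ξ i := fun i => by
    have := congrFun (repV_eq e (fun k _ => (J e y *ᵥ ξ) k) y) i
    rwa [mulVec_mulVec, J_inv_mul he, one_mulVec] at this
  simpa only [h] using quad_rep he T (fun k _ => (J e y *ᵥ ξ) k) (fun k _ => (J e y *ᵥ ξ) k) y

theorem ex_cov (he : e ∈ At M) (y : E n) (ξ : Fin n → ℝ) : ∃ η : Fin n → ℝ, ∀ g : Fld n M,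
    ∑ i, ∑ j, Stmt.up (rep e g) i j y * ξ i * ξ j = ∑ i, ∑ j, up g i j (e.symm y) * η i * η j := by
  refine ⟨((J e y)⁻¹)ᵀ *ᵥ ξ, fun g => ?_⟩
  have h : ∀ i, repC e (fun k _ => (((J e y)⁻¹)ᵀ *ᵥ ξ) k) i y = ξ i := fun i => by
    have := congrFun (repC_eq e (fun k _ => (((J e y)⁻¹)ᵀ *ᵥ ξ) k) y) i
    rwa [mulVec_mulVec, ← transpose_mul, J_inv_mul he, transpose_one, one_mulVec] at this
  simpa only [h, up_rep] using quadU_rep he (fun x i j => up g i j x)
    (fun k _ => (((J e y)⁻¹)ᵀ *ᵥ ξ) k) (fun k _ => (((J e y)⁻¹)ᵀ *ᵥ ξ) k) y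

end L0

variable {n : ℕ} {M : Type} [Mfs n M]

/-- the background metric is uniformly elliptic in the balls of the preferred charts -/
structure Eb (M : Type) [Mfs n M] (Λ : ℝ) : Prop where
  one : 1 ≤ Λ
  el : ∀ x : M, ∀ y ∈ ball (pt x) 4, P366Y.C.El (rep (ch x) bg) Λ y

theorem bdd_ball {F : Ch n M → E n → ℝ} (hF : ∀ e ∈ At M, Continuous (F e)) {c : ℝ}
    (h : ∀ (e : Ch n M) y, rep e bg y = P366Z.eu n y → F e y = c) :
    ∃ K, 0 < K ∧ ∀ x : M, ∀ y ∈ ball (pt x) 4, |F (ch x) y| ≤ K := by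
  obtain ⟨K, K0, hK⟩ := bdd_ch hF (R0 M + 4) 4
  refine ⟨max K |c|, by positivity, fun x y hy => ?_⟩
  rcases le_total ‖px x‖ (R0 M + 4) with k | k
  · exact (hK x k y (ball_subset_closedBall hy)).trans (le_max_left _ _)
  · obtain ⟨j, z, rfl, hz⟩ := far_rep (x := x) (by linarith)
    rw [hz] at k
    rw [pt_ye (by linarith)] at hy
    have k1 : R0 M ≤ ‖y‖ := by linarith [norm_ge_of_ball hy]
    rw [h _ y (by
      rw [rep_ye_ball (by linarith) (ball_subset_ball (by norm_num) hy) k1,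
        bg_far (by rwa [px_ye' k1])]
      rfl)]
    exact le_max_right _ _

theorem exists_eb (M : Type) [Mfs n M] : ∃ Λ, Eb M Λ := by
  have hg : Met (bg : Fld n M) := bg_met
  choose K1 p1 h1 using fun i j => bdd_ball (M := M) (F := fun e y => rep e bg y i j)
    (fun e he => (hg.sm e he i j).cont) (c := P366Z.eu n 0 i j) fun e y hy => by rw [hy]; rfl
  choose K2 p2 h2 using fun i j => bdd_ball (M := M) (F := fun e => Stmt.up (rep e bg) i j)
    (fun e he => ((hg.rep he).sm_up i j).cont) (c := P366Z.eu n 0 i j) fun e y hy => by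
      rw [P366Z.up_of_eq hy, P366Z.up_eu]; rfl
  obtain ⟨K3, p3, h3⟩ := bdd_ball (M := M) (F := fun e => P366Z.dens (rep e bg))
    (fun e he => (hg.rep he).sm_dens.cont) (c := 1) fun e y hy => by
      rw [P366Z.dens_of_eq hy, P366Z.dens_eu]
  obtain ⟨K4, p4, h4⟩ := bdd_ball (M := M) (F := fun e y => (P366Z.dens (rep e bg) y)⁻¹)
    (fun e he => (hg.rep he).sm_dens.cont.inv₀ fun y => ((hg.rep he).dens_pos y).ne') (c := 1)
    fun e y hy => by rw [P366Z.dens_of_eq hy, P366Z.dens_eu, inv_one]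
  obtain ⟨A, hA⟩ := (finite_range fun p : Fin n × Fin n => K1 p.1 p.2 + K2 p.1 p.2).bddAbove
  set S := |A| + K3 + K4 + 1 with hS
  have q1 : ∀ i j, K1 i j + K2 i j ≤ |A| := fun i j => (hA ⟨(i, j), rfl⟩).trans (le_abs_self A)
  have q0 := abs_nonneg A
  have r1 : ∀ i j, K1 i j ≤ S := fun i j => by linarith [q1 i j, p2 i j]
  have r2 : ∀ i j, K2 i j ≤ S := fun i j => by linarith [q1 i j, p1 i j]
  have r6 : 1 ≤ S := by linarith
  have r7 : S ≤ (n + 1) * S := by nlinarith [(Nat.cast_nonneg n : (0 : ℝ) ≤ n)]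
  have s0 : ∀ ξ : Fin n → ℝ, 0 ≤ ∑ i, ξ i ^ 2 := fun ξ => by positivity
  refine ⟨(n + 1) * S, r6.trans r7, fun x y hy => ?_⟩
  have m := hg.loc' x
  have a1 : ∀ ξ : Fin n → ℝ, ∑ i, ∑ j, rep (ch x) bg y i j * ξ i * ξ j ≤
      (n + 1) * S * ∑ i, ξ i ^ 2 := fun ξ =>
    (quad_le_of_bd (fun i j => (h1 i j x y hy).trans (r1 i j)) ξ).trans
      (mul_le_mul_of_nonneg_right (by linarith) (s0 ξ))
  have a2 : ∀ ξ : Fin n → ℝ, ∑ i, ∑ j, Stmt.up (rep (ch x) bg) i j y * ξ i * ξ j ≤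
      (n + 1) * S * ∑ i, ξ i ^ 2 := fun ξ =>
    (quad_le_of_bd (M := fun i j => Stmt.up (rep (ch x) bg) i j y)
      (fun i j => (h2 i j x y hy).trans (r2 i j)) ξ).trans
      (mul_le_mul_of_nonneg_right (by linarith) (s0 ξ))
  refine ⟨a1, fun ξ => ?_, a2, fun ξ => ?_, ?_, ?_⟩
  · exact lo_of_hi (s0 ξ) (m.g_nonneg y ξ) (by rw [mul_comm]; exact m.sq_le y ξ) (a2 ξ)
      (by linarith)
  · exact lo_of_hi (s0 ξ) (m.up_nonneg y ξ) (m.sq_le y ξ) (a1 ξ) (by linarith)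
  · linarith [le_abs_self (P366Z.dens (rep (ch x) bg) y), h3 x y hy]
  · have k := m.dens_pos y
    have k1 : (P366Z.dens (rep (ch x) bg) y)⁻¹ ≤ (n + 1) * S := by
      linarith [le_abs_self (P366Z.dens (rep (ch x) bg) y)⁻¹, h4 x y hy]
    rwa [inv_le_iff_one_le_mul₀ k] at k1

namespace Eb

variable {Λ B : ℝ} (h : Eb M Λ) {g : Fld n M} {x : M} {y : E n}
include h

theorem at_pt (p : M) : P366Y.C.El (rep (ch p) bg) Λ (pt p) :=
  h.el p _ (mem_ball_self (by norm_num))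

/-- the bounds at the centres give bounds in the balls -/
theorem el_rep (hy : y ∈ ball (pt x) 4) (hB : 0 ≤ B) (H : El g B ((ch x).symm y)) :
    P366Y.C.El (rep (ch x) g) (B * Λ ^ 2) y := by
  have he := ch_mem x
  have k := h.el x y hy
  have k' := h.at_pt ((ch x).symm y)
  have Λ1 := h.one
  have Λ0 : 0 ≤ Λ := by linarith
  have two : ∀ {a b c d : ℝ}, a ≤ B * b → b ≤ Λ * c → c ≤ Λ * d → a ≤ B * Λ ^ 2 * d :=
    fun {a b c d} h1 h2 h3 => by
      have := mul_le_mul_of_nonneg_left h2 hB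
      have := mul_le_mul_of_nonneg_left h3 (mul_nonneg hB Λ0)
      linarith
  have two' : ∀ {a b c d : ℝ}, a ≤ Λ * b → b ≤ Λ * c → c ≤ B * d → a ≤ B * Λ ^ 2 * d :=
    fun {a b c d} h1 h2 h3 => by
      have := mul_le_mul_of_nonneg_left h2 Λ0
      have := mul_le_mul_of_nonneg_left h3 (mul_nonneg Λ0 Λ0)
      linarith
  have d0 := dens_nonneg g ((ch x).symm y)
  refine ⟨fun ξ => ?_, fun ξ => ?_, fun ξ => ?_, fun ξ => ?_, ?_, ?_⟩
  · obtain ⟨η, hη⟩ := ex_vec he y ξ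
    rw [hη]
    exact two (H.g_hi η) (by simpa only [rep_pt] using k'.g_lo η) (hη _ ▸ k.g_hi ξ)
  · obtain ⟨η, hη⟩ := ex_vec he y ξ
    rw [hη]
    exact two' (hη _ ▸ k.g_lo ξ) (by simpa only [rep_pt] using k'.g_hi η) (H.g_lo η)
  · obtain ⟨η, hη⟩ := ex_cov he y ξ
    rw [hη]
    exact two (H.up_hi η) (by simpa only [up_pt] using k'.up_lo η) (hη _ ▸ k.up_hi ξ)
  · obtain ⟨η, hη⟩ := ex_cov he y ξ
    rw [hη]
    exact two' (hη _ ▸ k.up_lo ξ) (by simpa only [up_pt] using k'.up_hi η) (H.up_lo η)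
  · rw [← dens_mul he]
    have := mul_le_mul k.dens_hi H.dens_hi d0 Λ0
    nlinarith [mul_le_mul_of_nonneg_left Λ1 (mul_nonneg hB Λ0)]
  · rw [← dens_mul he]
    have k1 := one_le_mul_of_one_le_of_one_le k.dens_lo H.dens_lo
    have k2 := mul_nonneg (mul_nonneg (mul_nonneg hB Λ0) (P366Z.dens_nonneg (rep (ch x) bg) y)) d0
    nlinarith [mul_le_mul_of_nonneg_left Λ1 k2]

/-- the energy density of the background metric is controlled by the one of `g` -/
theorem g2_le {u : M → ℝ} (H : El g B x) : g2 u x ≤ Λ * B * ip g u u x := by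
  have k1 : g2 u x ≤ Λ * ∑ i, pd i u x ^ 2 := by
    simpa only [up_pt, g2, ip] using (h.at_pt x).up_hi fun i => pd i u x
  have k2 := mul_le_mul_of_nonneg_left (H.up_lo fun i => pd i u x) (zero_le_one.trans h.one)
  rw [mul_assoc]
  exact k1.trans k2

/-- the Euclidean energy density in a chart -/
theorem g2_loc {u : M → ℝ} (hu : Smooth u) (hy : y ∈ ball (pt x) 4) :
    P366Y.C.g2 (loc (ch x) u) y ≤
      Λ ^ 2 * (P366Z.dens (rep (ch x) bg) y * g2 u ((ch x).symm y)) := by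
  have k := h.el x y hy
  have k1 := k.up_lo fun i => Stmt.pd i (loc (ch x) u) y
  have k2 := ip_rep (ch_mem x) bg (hu.diff ((ch x).symm y)) (hu.diff ((ch x).symm y))
  rw [P366Z.ip] at k2
  rw [k2] at k1
  have k3 : 0 ≤ g2 u ((ch x).symm y) := bg_met.ip_nonneg _ _
  have k4 := mul_le_mul_of_nonneg_left k.dens_lo (mul_nonneg (zero_le_one.trans h.one) k3)
  change _ ≤ Λ * g2 u ((ch x).symm y) at k1
  unfold P366Y.C.g2
  nlinarith

end Eb

end Vale.Agent.P366M.Y.C
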