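import Vale.Agent.P366Q.C.Defs2
import Vale.Agent.P366M.End4
import Vale.Agent.P366Y.C.Fin
import Vale.Agent.P366Z.Asy

/-!
# P366Q, block C on manifolds: the energy is finite, the integration of the pointwise inequality
-/

open MeasureTheory Metric Filter Topology Set
open scoped ContDiff ENNReal
open Vale.Agent.P366 Vale.Agent.P366.Stmt Vale.Agent.P366Z

noncomputable section

namespace Vale.Agent.P366M.Y.C

theorem cont_g2 {n : ℕ} {M : Type} [Mf n M] {u : M → ℝ} (hu : CD 1 u) : Continuous (g2 u) :=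
  bg_met.cont_ip hu hu

theorem g2_nonneg {n : ℕ} {M : Type} [Mf n M] (u : M → ℝ) (x : M) : 0 ≤ g2 u x :=
  bg_met.ip_nonneg u x

theorem g2_far {n : ℕ} {M : Type} [Mfs n M] (u : M → ℝ) {x : M} (hx : R0 M ≤ ‖px x‖) :
    g2 u x = ∑ i, pd i u x ^ 2 := by
  rw [g2, ip_of_eq (bg_far hx), ip_eu]
  simp only [pow_two]

/-- **row G2F** -/
theorem g2f : G2F := by
  intro n M _ u a β hn hu h
  have k := P366Y.C.g2f n _ a β hn (hu.xfj Mfe.o 0) (asyE_xfj.1 (h.asyE _))
  rw [← integrableOn_univ, show (univ : Set M) = {x | ‖px x‖ ≤ R0 M + 1} ∪ {x | R0 M + 1 ≤ ‖px x‖}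
    from (eq_univ_of_forall fun x => le_total ‖px x‖ (R0 M + 1)).symm]
  refine ((cont_g2 hu.one).continuousOn.integrableOn_compact (isCompact_px M _)).union
    ((integrableOn_far (by linarith) _).2 (k.integrableOn.congr_fun (fun y hy => ?_) (meas_far _)))
  have hy' : R0 M + 1 ≤ ‖y‖ := hy
  rw [fe_eq, fj, g2_far u (by rw [px_ye' (by linarith)]; linarith)]
  simp only [P366Y.C.g2, pd_xfj (c := 0) (show R0 M + 1 / 2 < ‖y‖ by linarith)]

variable {n : ℕ} {M : Type} [Mfe n M] {g : Fld n M} {X : Fin n → M → ℝ}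

/-- the flux at infinity -/
theorem fluxM (hn : 3 ≤ n) (hg : Met g) (hX : CV ∞ X) {κ : ℝ} (ha : ∃ C R : ℝ, ∀ x : M,
    R ≤ ‖px x‖ → ∀ i, |dens g x * X i x - κ * px x i * ‖px x‖ ^ (-n : ℝ)| ≤
      C * ‖px x‖ ^ (-n : ℝ)) :
    Tendsto (fun r => ∫ x, cut r x * dv g X x * dens g x) atTop (𝓝 (κ * omega n)) := by
  obtain ⟨C, R, ha⟩ := ha
  set Y : Fin n → E n → ℝ := fun i => xt M (fun y => dens g (yp y) * X i (yp y)) fun _ => 0 with hY
  have sY : ∀ i, Stmt.Smooth (Y i) := fun i => cd_xt le_rfl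
    (fun y hy => (CD.fj_at hg.sm_dens hy.le).mul (hX.fj_at hy i)) contDiff_const
  have eY : ∀ i y, R0 M + 1 / 2 ≤ ‖y‖ → Y i y = dens g (yp y) * X i (yp y) :=
    fun i y h => xt_eq h
  refine (flux n Y κ hn sY ⟨C, max R (R0 M + 1), fun y hy i => ?_⟩).congr' ?_
  · simp only [max_le_iff] at hy
    have e : px (yp y : M) = y := px_yp (by linarith)
    have := ha (yp y) (by rw [e]; exact hy.1) i
    rw [e] at this
    rwa [eY i y (by linarith)]
  · filter_upwards [eventually_ge_atTop (R0 M + 1)] with r hr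
    have h2 : 0 < r := by linarith [R0_ge M]
    have h3 : ∀ i, Integrable fun x => Stmt.pd i (P366Z.cut r) x * Y i x := fun i => by
      simpa only [mul_comm] using (P366Z.lip_cut h2).integrable_pd
        (fun _ hy => P366Z.cut_zero h2 hy) (sY i).cont i
    have h4 : ∫ x, P366Z.cut r x * ∑ i, Stmt.pd i (Y i) x =
        -∫ x, ∑ i, Stmt.pd i (P366Z.cut r) x * Y i x := by
      simp only [Finset.mul_sum]
      rw [integral_finsetSum, integral_finsetSum _ fun i _ => h3 i, ← Finset.sum_neg_distrib]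
      · exact Finset.sum_congr rfl fun i _ =>
          ibp (P366Z.lip_cut h2) (P366Z.supp_cut h2) (ContDiff.of_le (sY i) (by norm_cast)) i
      · exact fun i _ => ((P366Z.sm_cut r).cont.mul
          ((sY i).pd i).cont).integrable_of_hasCompactSupport (P366Z.supp_cut h2).mul_right
    rw [h4, hg.ibp_dv (lip_cut h2).llip (supp_cut h2) (hX.of_le (by norm_cast)), neg_inj]
    refine (integral_out (R := r) (by linarith) (fun x hx => ?_) (fun y hy => ?_)
      fun y hy => ?_).symm
    · simp only [pd_cut_in hx, zero_mul, Finset.sum_const_zero]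
    · simp only [P366Z.pd_cut_in hy, zero_mul, Finset.sum_const_zero]
    · have e : px (yp y : M) = y := px_yp (by linarith)
      rw [Finset.sum_mul]
      refine Finset.sum_congr rfl fun i _ => ?_
      rw [eY i y (by linarith), show cut r = fun z : M => P366Z.cut r (px z) from rfl,
        pd_px (by rw [e]; linarith), e]
      ring

/-- **row FIN** -/
theorem fin2 {w θ : M → ℝ} {A : Set M} {κ c C e : ℝ} (hn : 3 ≤ n) (hg : Met g) (hX : CV ∞ X)
    (ha : ∃ C R : ℝ, ∀ x : M, R ≤ ‖px x‖ → ∀ i,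
      |dens g x * X i x - κ * px x i * ‖px x‖ ^ (-n : ℝ)| ≤ C * ‖px x‖ ^ (-n : ℝ))
    (iw : Integrable w) (w0 : ∀ x, 0 ≤ w x) (iθ : Integrable θ) (θ0 : ∀ x, 0 ≤ θ x) (hC : 0 ≤ C)
    (he : 0 ≤ e) (hc : C * e ≤ c / 2)
    (hA : volume A ≤ ENNReal.ofReal e * ∫⁻ x, ENNReal.ofReal (w x))
    (h1 : ∀ x, x ∉ A → c * w x - θ x ≤ dv g X x * dens g x)
    (h2 : ∀ x ∈ A, c * w x - C ≤ dv g X x * dens g x) :
    c / 2 * (∫ x, w x) - ∫ x, θ x ≤ κ * omega n := by
  have I0 : 0 ≤ ∫ x, w x := integral_nonneg w0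
  have mA := measurableSet_toMeasurable volume A
  rw [← ofReal_integral_eq_lintegral_ofReal iw (ae_of_all _ w0), ← ENNReal.ofReal_mul he,
    ← measure_toMeasurable] at hA
  have v1 : volume.real (toMeasurable volume A) ≤ e * ∫ x, w x :=
    ENNReal.toReal_le_of_le_ofReal (mul_nonneg he I0) hA
  have iA : Integrable ((toMeasurable volume A).indicator fun _ : M => C) :=
    (integrable_indicator_iff mA).2
      (integrableOn_const (ne_top_of_le_ne_top ENNReal.ofReal_ne_top hA))
  have m1 : ∀ r, AEStronglyMeasurable fun x => cut r x * w x :=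
    fun r => (sm_cut r).cont.aestronglyMeasurable.mul iw.1
  have b1 : ∀ r x, ‖cut r x * w x‖ ≤ w x := fun r x => by
    rw [Real.norm_of_nonneg (mul_nonneg (cut_nonneg r x) (w0 x))]
    exact mul_le_of_le_one_left (w0 x) (cut_le_one r x)
  have t1 : Tendsto (fun r => ∫ x, cut r x * w x) atTop (𝓝 (∫ x, w x)) :=
    tendsto_integral_filter_of_dominated_convergence w (.of_forall m1)
      (.of_forall fun r => ae_of_all _ (b1 r)) iw
      (ae_of_all _ fun x => by simpa using (cut_tendsto x).mul_const (w x))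
  have key := le_of_tendsto_of_tendsto (((t1.const_mul c).sub_const (∫ x, θ x)).sub_const
    (volume.real (toMeasurable volume A) * C)) (fluxM hn hg hX ha) (by
      filter_upwards [eventually_gt_atTop 0] with r hr
      have i1 := (iw.mono' (m1 r) (ae_of_all _ (b1 r))).const_mul c
      have i2 : Integrable fun x => c * (cut r x * w x) - θ x := i1.sub iθ
      rw [← smul_eq_mul (volume.real _), ← integral_indicator_const C mA, ← integral_const_mul,
        ← integral_sub i1 iθ, ← integral_sub i2 iA]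
      refine integral_mono (i2.sub iA) ((((sm_cut r).cont.mul (hg.sm_dv hX).cont).mul
        hg.sm_dens.cont).integrable_of_hasCompactSupport
          (supp_cut hr).mul_right.mul_right) fun x => ?_
      have k0 : 0 ≤ (toMeasurable volume A).indicator (fun _ : M => C) x :=
        indicator_nonneg (fun _ _ => hC) x
      have k1 : c * w x - θ x - (toMeasurable volume A).indicator (fun _ : M => C) x ≤
          dv g X x * dens g x := by
        by_cases k : x ∈ A
        · rw [indicator_of_mem (subset_toMeasurable volume A k)]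
          linarith [h2 x k, θ0 x]
        · linarith [h1 x k]
      have k2 := mul_le_mul_of_nonneg_left k1 (cut_nonneg r x)
      have k3 := mul_le_of_le_one_left (add_nonneg (θ0 x) k0) (cut_le_one r x)
      beta_reduce
      linarith)
  nlinarith [mul_le_mul_of_nonneg_left v1 hC, mul_le_mul_of_nonneg_right hc I0]

end Vale.Agent.P366M.Y.C
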