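import Vale.Agent.P366Q.C.Ts
import Vale.Agent.P366Q.C.Fin
import Vale.Agent.P366Q.C.Asyz
import Vale.Agent.P366M.Max
import Vale.Agent.P366M.SkE

/-!
# P366Q, block C on manifolds: the test of the equation (rows ENE, MASS, FLOOR)
-/

open MeasureTheory Metric Filter Topology Set
open scoped ContDiff ENNReal
open Vale.Agent.P366 Vale.Agent.P366.Stmt Vale.Agent.P366Z

noncomputable section

namespace Vale.Agent.P366M.Y.C

/-- **row ENE**: the output of the test, with the energy and the structure -/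
theorem ene {n : ℕ} (M : Type) [Mfe n M] {L : ℝ} (G : Geo M L) (B k₀ h : ℝ) (hn : 3 ≤ n)
    (B1 : 1 ≤ B) (h0 : 0 < h) : ∃ r₀ > (0 : ℝ), L * r₀ ≤ 1 ∧ ∃ c > (0 : ℝ), ∃ B' : ℝ,
      ∃ a > (0 : ℝ), ∀ (g K : Fld n M) (f T u U lam Λ θ : M → ℝ) (F : ℝ → ℝ) (r R β β' : ℝ),
        0 < r → r ≤ r₀ → Tst g K f T u U lam Λ θ F B k₀ h r R β β' →
        4 * gam n * F 1 * (n - 2) * Stmt.omega n * β + a * ∫ x, g2 u x ≤ ∫ x, θ x ∧
          ∃ Z, StM u Z c B' (L * r) := by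
  have L1 : 1 ≤ L := by linarith [G.four]
  obtain ⟨A, hA⟩ := exists_eb M
  have A1 := hA.one
  obtain ⟨c, c0, B', hS⟩ := stm M L1 B hn B1
  obtain ⟨C, C0, hB⟩ := bad M G c B' k₀ h hn c0 h0
  have B0 : 0 < B := by linarith
  have q0 : 0 < B * B * k₀ ^ 2 * C + 1 := by positivity
  have r0 : ∀ r ≤ 1 / L, L * r ≤ 1 := fun r hr => by
    rwa [le_div_iff₀' (by linarith)] at hr
  refine ⟨min (1 / L) (1 / (A * B) ^ 5 / 2 / (B * B * k₀ ^ 2 * C + 1)),
    lt_min (by positivity) (by positivity), r0 _ (min_le_left _ _), c, c0, B',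
    1 / (A * B) ^ 5 / 2, by positivity, ?_⟩
  intro g K f T u U lam Λ θ F r R β β' hr0 hr H
  have r1 := r0 r (hr.trans (min_le_left _ _))
  have r2 := (le_div_iff₀ q0).1 (hr.trans (min_le_right _ _))
  obtain ⟨Z, hZ⟩ := hS g K f T u U lam Λ θ F k₀ h r R β β' hr0 r1 H
  refine ⟨?_, Z, hZ⟩
  have key := fin2 (w := g2 u) (θ := θ) (c := 1 / (A * B) ^ 5) (C := B * B * k₀ ^ 2)
    (e := C * r ^ 2) hn H.met (H.sz hn B1) (asyz K T hn H.smF H.U0 H.far H.asyU H.asy)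
    (g2f n M u 1 β hn H.smu H.asy) (g2_nonneg u) H.int H.θ0 (by positivity) (by positivity) ?_
    (hB u Z r H.smu hr0 (by linarith) hZ) ?_ ?_
  · linarith
  · have k1 : r ^ 2 ≤ r := by nlinarith
    have k2 : B * B * k₀ ^ 2 * C * r ^ 2 ≤ B * B * k₀ ^ 2 * C * r :=
      mul_le_mul_of_nonneg_left k1 (by positivity)
    nlinarith
  · intro x hx
    have k1 := H.good x (by
      by_contra k
      rw [not_or, not_lt, not_forall₂] at k
      obtain ⟨k1, y, hy, k2⟩ := k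
      exact hx ⟨k1, y, hy, not_le.1 k2⟩)
    linarith [H.lo hn B1 hA x]
  · intro x hx
    have k1 := mul_le_mul_of_nonneg_left (H.all x) (dens_nonneg g x)
    have k2 : u x ^ 2 ≤ k₀ ^ 2 := pow_le_pow_left₀ (H.u0 x).le hx.1 2
    have k3 : dens g x * (B * u x ^ 2) ≤ B * (B * k₀ ^ 2) :=
      mul_le_mul (H.el x).dens_hi (mul_le_mul_of_nonneg_left k2 B0.le) (by positivity) B0.le
    linarith [H.lo hn B1 hA x]

/-- **row MASS** -/
theorem mass : MASS := by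
  intro n M _ B k₀ h hn B1 h0
  obtain ⟨L, G⟩ := exists_geo M
  obtain ⟨r₀, r0, -, c, -, B', a, a0, hE⟩ := ene M G B k₀ h hn B1 h0
  refine ⟨r₀, r0, fun g K f T u U lam Λ θ F r R β β' hr hr' H => ?_⟩
  have := (hE g K f T u U lam Λ θ F r R β β' hr hr' H).1
  have k : 0 ≤ ∫ x, g2 u x := integral_nonneg (g2_nonneg u)
  nlinarith [mul_nonneg a0.le k]

/-- **row FLOOR** -/
theorem floor : FLOOR := by
  intro n M _ g f u Λ F a β hn hg hf hu hs hm h0 u0 ha a1 he hl x₀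
  by_contra! k
  obtain ⟨x, hx⟩ := hu.cont.exists_forall_le' x₀
    (((ha.tendsto hn).eventually (lt_mem_nhds a1)).mono fun _ h => (k.trans h).le)
  have hφ : Smooth fun y => F (u y) := hs.compM hu
  have h1 := (GbH.met_gb hg hφ hf).lap_nonneg (hu.c2 x) (.of_forall hx)
  obtain ⟨lam, C, h2, h3, h4, h5⟩ := hl x ((hx x₀).trans_lt k)
  have h6 := (flp n M g _ f x lam C hg hφ hf (h0 _) (.of_forall fun y => hm (hx y)) h2 h3
    h4).trans_lt h5
  have h7 := he x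
  rw [cl, rb_ n M g _ f hg hφ hf fun _ => h0 _] at h7
  nlinarith [mul_pos (sub_pos.2 h6) (u0 x), mul_nonneg (one_pos.trans (one_lt_gam hn)).le h1]

end Vale.Agent.P366M.Y.C
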