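import Vale.Agent.P366Q.C.Defs2

/-!
# P366Q, block C on manifolds: the quantities in a chart
-/

open MeasureTheory Metric Filter Topology Set
open scoped ContDiff ENNReal
open Vale.Agent.P366 Vale.Agent.P366.Stmt Vale.Agent.P366Z

noncomputable section

namespace Vale.Agent.P366M.Y.C

variable {n : ℕ} {M : Type} [Mf0 n M] {e : Ch n M} {x : M} {y : E n} {g K S : Fld n M}
  {φ f T u v : M → ℝ}

/-! ### the values at the centre of the preferred chart -/

theorem pd_pt (i : Fin n) (f : M → ℝ) (x : M) : Stmt.pd i (loc (ch x) f) (pt x) = pd i f x := rfl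

theorem gb_pt (g : Fld n M) (φ f : M → ℝ) (x : M) :
    P366Y.C.gb (rep (ch x) g) (loc (ch x) φ) (loc (ch x) f) (pt x) = gb g φ f x := by
  funext i j
  simp only [P366Y.C.gb, gb, rep_pt, loc_pt, pd_pt]

theorem ww_pt (g : Fld n M) (φ f : M → ℝ) (x : M) :
    P366Y.C.ww (rep (ch x) g) (loc (ch x) φ) (loc (ch x) f) (pt x) = ww g φ f x := by
  simp only [P366Y.C.ww, ww, loc_pt, ip_pt]

theorem b2_pt (g S : Fld n M) (u v : M → ℝ) (x : M) :
    P366Y.C.b2 (rep (ch x) g) (rep (ch x) S) (loc (ch x) u) (loc (ch x) v) (pt x) =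
      b2 g S u v x := by
  simp only [P366Y.C.b2, b2, rep_pt, gr_pt]

theorem tv_pt (g S : Fld n M) (u : M → ℝ) (i : Fin n) (x : M) :
    P366Y.C.tv (rep (ch x) g) (rep (ch x) S) (loc (ch x) u) i (pt x) = tv g S u i x := by
  simp only [P366Y.C.tv, tv, rep_pt, gr_pt, up_pt]

theorem n1_pt (g S : Fld n M) (u : M → ℝ) (x : M) :
    P366Y.C.n1 (rep (ch x) g) (rep (ch x) S) (loc (ch x) u) (pt x) = n1 g S u x := by
  simp only [P366Y.C.n1, n1, rep_pt, gr_pt, tv_pt]

theorem gt_pt (g S : Fld n M) (f : M → ℝ) (lam : ℝ) (x : M) :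
    P366Y.C.gt (rep (ch x) g) (rep (ch x) S) (loc (ch x) f) lam (pt x) = gt g S f lam x := by
  simp only [P366Y.C.gt, gt, tr_pt, b2_pt, ip_pt]

/-! ### the quantities in an admissible chart -/

theorem rep_gb (he : e ∈ At M) (g : Fld n M) (φ : M → ℝ) (hf : ∀ x, DAt f x) :
    rep e (gb g φ f) = P366Y.C.gb (rep e g) (loc e φ) (loc e f) := by
  have h : gb g φ f = fun x i j => g x i j + φ x ^ 2 * (pd i f x * pd j f x) := by
    funext x i j
    rw [gb, mul_assoc]
  rw [h, rep_add, rep_smul, rep_prod, repC_pd he hf]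
  funext y i j
  simp only [P366Y.C.gb, mul_assoc]
  rfl

theorem loc_ww (he : e ∈ At M) (g : Fld n M) (φ : M → ℝ) (hf : ∀ x, DAt f x) :
    loc e (ww g φ f) = P366Y.C.ww (rep e g) (loc e φ) (loc e f) := by
  funext y
  rw [P366Y.C.ww, ip_rep he g (hf _) (hf _)]
  rfl

theorem rep_hh (hg : Met g) (he : e ∈ At M) (hφ : ∀ x, DAt φ x) (hf : CD 2 f) :
    rep e (hh g φ f) = P366Y.C.hh (rep e g) (loc e φ) (loc e f) := by
  have df := hf.differentiable two_ne_zero
  have h : hh g φ f = fun x i j => (ww g φ f x)⁻¹ *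
      (φ x * hess g f x i j + pd i φ x * pd j f x + pd i f x * pd j φ x) := by
    funext x i j
    rw [hh]
    ring
  rw [h, rep_smul, rep_add, rep_add, rep_smul, rep_prod, rep_prod, repC_pd he hφ, repC_pd he df,
    rep_hess hg he hf]
  funext y i j
  rw [P366Y.C.hh, ← loc_ww he g φ df]
  simp only [loc]
  ring

theorem loc_b2 (he : e ∈ At M) (g S : Fld n M) (hu : ∀ x, DAt u x) (hv : ∀ x, DAt v x) :
    loc e (b2 g S u v) = P366Y.C.b2 (rep e g) (rep e S) (loc e u) (loc e v) := by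
  funext y
  rw [P366Y.C.b2, ← repV_gr he g hu, ← repV_gr he g hv, quad_rep he]
  rfl

theorem repV_tv (he : e ∈ At M) (g S : Fld n M) (hu : ∀ x, DAt u x) :
    repV e (tv g S u) = P366Y.C.tv (rep e g) (rep e S) (loc e u) := by
  have h : tv g S u = fun i x => ∑ j, up g i j x * ∑ k, S x j k * gr g u k x := by
    funext i x
    simp only [tv, Finset.mul_sum, mul_assoc]
  rw [h, raise_rep he (fun x i j => up g i j x) fun j x => ∑ k, S x j k * gr g u k x,
    lower_rep he, repV_gr he g hu]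
  funext i y
  simp only [P366Y.C.tv, Finset.mul_sum, mul_assoc, up_rep]

theorem loc_n1 (he : e ∈ At M) (g S : Fld n M) (hu : ∀ x, DAt u x) :
    loc e (n1 g S u) = P366Y.C.n1 (rep e g) (rep e S) (loc e u) := by
  funext y
  rw [P366Y.C.n1, ← repV_tv he g S hu, ← repV_gr he g hu, quad_rep he]
  rfl

theorem loc_gt (he : e ∈ At M) (g S : Fld n M) (hf : ∀ x, DAt f x) (lam : ℝ) :
    loc e (gt g S f lam) = P366Y.C.gt (rep e g) (rep e S) (loc e f) lam := by
  funext y
  rw [P366Y.C.gt, ← loc_b2 he g S hf hf, ← loc_ip he g hf hf, ← loc_tr he]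
  rfl

theorem rep_pk (hg : Met g) (he : e ∈ At M) (K : Fld n M) (hφ : ∀ x, DAt φ x) (hf : CD 2 f) :
    rep e (pk g K φ f) = P366Y.C.pk (rep e g) (rep e K) (loc e φ) (loc e f) := by
  rw [show pk g K φ f = fun x i j => hh g φ f x i j - K x i j from rfl, rep_sub,
    rep_hh hg he hφ hf]
  rfl

theorem repV_yy (hg : Met g) (he : e ∈ At M) (K : Fld n M) (hφ : ∀ x, DAt φ x) (hf : CD 2 f)
    (T : M → ℝ) : repV e (yy g K φ f T) =
      P366Y.C.yy (rep e g) (rep e K) (loc e φ) (loc e f) (loc e T) := by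
  have df := hf.differentiable two_ne_zero
  rw [show yy g K φ f T = fun i x => φ x ^ 2 * (tv g (pk g K φ f) f i x +
      (T x - tr g (pk g K φ f) x) * gr g f i x) from rfl, repV_smul, repV_add, repV_smul,
    repV_tv he g _ df, repV_gr he g df]
  funext i y
  rw [P366Y.C.yy, ← rep_pk hg he K hφ hf, tr_rep he]
  rfl

theorem loc_er (hg : Met g) (he : e ∈ At M) (K : Fld n M) (φ : M → ℝ) (hf : CD 2 f) (T : M → ℝ)
    (lam : ℝ) : loc e (er g K φ f T lam) =
      P366Y.C.er (rep e g) (rep e K) (loc e φ) (loc e f) (loc e T) lam := by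
  have df := hf.differentiable two_ne_zero
  funext y
  rw [P366Y.C.er, ← rep_hess hg he hf, ← loc_gt he g _ df, ← loc_gt he g _ df, ← loc_ww he g φ df]
  rfl

theorem repV_zz (hg : Met g) (he : e ∈ At M) (K : Fld n M) (hφ : ∀ x, DAt φ x) (hf : CD 2 f)
    (T : M → ℝ) (hu : ∀ x, DAt u x) : repV e (zz g K φ f T u) =
      P366Y.C.zz (rep e g) (rep e K) (loc e φ) (loc e f) (loc e T) (loc e u) := by
  have df := hf.differentiable two_ne_zero
  rw [show zz g K φ f T u = fun i x => 4 * gam n * φ x * u x * ww g φ f x * gr (gb g φ f) u i x +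
      2 * u x ^ 2 * yy g K φ f T i x from rfl, repV_add, repV_smul, repV_smul,
    repV_gr he _ hu, repV_yy hg he K hφ hf, rep_gb he g φ df]
  funext i y
  rw [P366Y.C.zz, ← loc_ww he g φ df]
  rfl

theorem loc_momgr (hg : Met g) (he : e ∈ At M) (hK : SmT K) (hf : ∀ x, DAt f x) (y : E n) :
    ∑ j, Stmt.mom (rep e g) (rep e K) j y * P366Z.gr (rep e g) (loc e f) j y =
      ∑ j, mom g K j (e.symm y) * gr g f j (e.symm y) := by
  rw [← repC_mom hg he hK, ← repV_gr he g hf, dot_rep he]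

theorem loc_ex (hg : Met g) (he : e ∈ At M) (hK : SmT K) (φ : M → ℝ) (hf : CD 2 f)
    (hT : ∀ x, DAt T x) (u : M → ℝ) (lam Λ : ℝ) : loc e (ex g K φ f T u lam Λ) =
      P366Y.C.ex (rep e g) (rep e K) (loc e φ) (loc e f) (loc e T) (loc e u) lam Λ := by
  have df := hf.differentiable two_ne_zero
  funext y
  rw [P366Y.C.ex, loc_momgr hg he hK df, ← loc_er hg he K φ hf, ← loc_ww he g φ df,
    ← loc_ip he g df df, ← loc_ip he g hT df, ← loc_tr he, ← loc_mu hg he]
  rfl

theorem loc_rb (hg : Met g) (he : e ∈ At M) (hφ : CD 2 φ) (hf : CD 2 f) :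
    loc e (rb g φ f) = P366Y.C.rb (rep e g) (loc e φ) (loc e f) := by
  have df := hf.differentiable two_ne_zero
  have dφ := hφ.differentiable two_ne_zero
  funext y
  rw [P366Y.C.rb, ric_rep hg he, ← rep_hess hg he hf, ← rep_hess hg he hφ, ← loc_ww he g φ df,
    ← loc_b2 he g _ dφ df, ← loc_b2 he g _ df df, ← loc_b2 he g _ df df, ← loc_b2 he g _ df df,
    ← loc_n1 he g _ df, ← loc_ip he g df df, ← loc_ip he g dφ df, ← loc_ip he g dφ dφ,
    ← loc_normSq he, ← loc_lap hg he hf, ← loc_lap hg he hφ, ← loc_scal hg he]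
  rfl

theorem Sy.rep (hK : Sy K) (he : e ∈ At M) : P366Y.C.Sy (rep e K) :=
  ⟨hK.sm e he, rep_sy hK.sy e⟩

theorem sy_of (h : ∀ e ∈ At M, P366Y.C.Sy (rep e K)) : Sy K :=
  ⟨fun e he => (h e he).sm, fun x i j => by
    simpa only [rep_pt] using (h _ (ch_mem x)).sy (pt x) i j⟩

end Vale.Agent.P366M.Y.C
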