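import Vale.Agent.P366Q.C.Bad
import Vale.Agent.P366Q.C.Pt

/-!
# P366Q, block C on manifolds: the pointwise consequences of the hypotheses of the test
-/

open MeasureTheory Metric Filter Topology Set
open scoped ContDiff ENNReal
open Vale.Agent.P366 Vale.Agent.P366.Stmt Vale.Agent.P366Z

noncomputable section

namespace Vale.Agent.P366M.Y.C

variable {n : ℕ} {M : Type} [Mfe n M]

namespace Tst

variable {g K : Fld n M} {f T u U lam Λ θ : M → ℝ} {F : ℝ → ℝ} {B k₀ h r R β β' : ℝ}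
  (H : Tst g K f T u U lam Λ θ F B k₀ h r R β β')
include H

theorem sφ : Smooth fun y => F (u y) := H.smF.compM H.smu

theorem φ0 (B1 : 1 ≤ B) (x : M) : 0 < F (u x) := by
  have := (H.Fb _ (H.u0 x)).1
  by_contra k
  nlinarith [mul_nonneg (zero_le_one.trans B1) (neg_nonneg.2 (not_lt.1 k))]

theorem dφ (x : M) (i : Fin n) : pd i (fun y => F (u y)) x = deriv F (u x) * pd i u x :=
  pd_comp ((H.smF.differentiable (by simp)) (u x)).hasDerivAt (H.smu.diff x) i

theorem sz (hn : 3 ≤ n) (B1 : 1 ≤ B) : CV ∞ (zz g K (fun y => F (u y)) f T u) :=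
  (pw2 n M g K _ f T u hn H.met H.sy H.sφ H.smf H.smT H.smu (H.φ0 B1)).1

theorem pw (hn : 3 ≤ n) (B1 : 1 ≤ B) (x : M) :
    ex g K (fun y => F (u y)) f T u (lam x) (Λ x) x + 2 * F (u x) * ww g (fun y => F (u y)) f x *
      ip (gb g (fun y => F (u y)) f) u u x ≤ dv g (zz g K (fun y => F (u y)) f T u) x := by
  have k1 := (pw2 n M g K _ f T u hn H.met H.sy H.sφ H.smf H.smT H.smu (H.φ0 B1)).2 x (lam x) _
    (Λ x) (H.u0 x) (H.Fb _ (H.u0 x)).2.2.1 (H.dφ x) (H.lam0 x) (H.eqn x)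
  have k2 := mul_nonneg (mul_nonneg (mul_nonneg (H.u0 x).le (H.Fb _ (H.u0 x)).2.2.1)
    (zero_le_one.trans (GbH.one_le_ww H.met (fun y => F (u y)) f x)))
    ((GbH.met_gb H.met H.sφ H.smf).ip_nonneg u x)
  nlinarith

theorem lo (hn : 3 ≤ n) (B1 : 1 ≤ B) {A : ℝ} (hA : Eb M A) (x : M) :
    1 / (A * B) ^ 5 * g2 u x + dens g x * ex g K (fun y => F (u y)) f T u (lam x) (Λ x) x ≤
      dv g (zz g K (fun y => F (u y)) f T u) x * dens g x := by
  have k := H.Fb _ (H.u0 x)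
  have A1 := hA.one
  have b1 : B ≤ A * B := le_mul_of_one_le_left (by linarith) A1
  have k1 := P366Y.C.MassH.low (B := A * B) (B1.trans b1)
    ((H.el x).dens_lo.trans (mul_le_mul_of_nonneg_right b1 (dens_nonneg g x)))
    (k.1.trans (mul_le_mul_of_nonneg_right b1 (H.φ0 B1 x).le)) (k.2.1.trans b1)
    (GbH.one_le_ww H.met (fun y => F (u y)) f x) (GbH.ww_sq H.met _ f x) ((H.df x).trans b1)
    (H.met.ip_nonneg f x) (H.met.ip_nonneg u x) (H.met.ip_cs f u x) (hA.g2_le (H.el x))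
    (GbH.ip_gb H.met (fun y => F (u y)) f u u x)
  have k2 := mul_le_mul_of_nonneg_left (H.pw hn B1 x) (dens_nonneg g x)
  nlinarith

end Tst

/-- the vector field of the test has the structure `StM` -/
theorem stm (M : Type) [Mfe n M] {L : ℝ} (L1 : 1 ≤ L) (B : ℝ) (hn : 3 ≤ n) (B1 : 1 ≤ B) :
    ∃ c > (0 : ℝ), ∃ B' : ℝ, ∀ (g K : Fld n M) (f T u U lam Λ θ : M → ℝ) (F : ℝ → ℝ)
      (k₀ h r R β β' : ℝ), 0 < r → L * r ≤ 1 → Tst g K f T u U lam Λ θ F B k₀ h r R β β' →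
      ∃ Z, StM u Z c B' (L * r) := by
  obtain ⟨A, hA⟩ := exists_eb M
  have A1 := hA.one
  have a1 : 1 ≤ A ^ 2 := one_le_pow₀ A1
  have l1 : 1 ≤ L ^ 2 := one_le_pow₀ L1
  have b1 : B ≤ B * A ^ 2 := le_mul_of_one_le_right (by linarith) a1
  have b2 : B * A ^ 2 ≤ B * A ^ 2 * L ^ 2 := le_mul_of_one_le_right (by linarith) l1
  have b3 := b1.trans b2
  obtain ⟨c, c0, B', hS⟩ := P366Y.C.strz n (B * A ^ 2 * L ^ 2) hn (B1.trans b3)
  refine ⟨c, c0, B', fun g K f T u U lam Λ θ F k₀ h r R β β' r0 r1 H =>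
    ⟨fun e i y => P366Z.dens (rep e g) y * repV e (zz g K (fun y => F (u y)) f T u) i y,
      fun e he i => ContDiff.mul (H.met.rep he).sm_dens (H.sz hn B1 e he i), fun x y hy => ?_⟩⟩
  have he := ch_mem x
  have Lr : 0 < L * r := by positivity
  set p := (ch x).symm y with hp
  have k := H.Fb _ (H.u0 p)
  have e1 := hA.el_rep hy (by linarith) (H.el p)
  have m := H.met.rep he
  have df := H.smf.diff
  have du := H.smu.diff
  simp only [repV_zz H.met he K H.sφ.diff H.smf.two T du]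
  refine hS _ _ _ _ _ _ y (L * r) (deriv F (u p)) m (H.sy.rep he) (H.sφ.lc he) (H.smf.lc he)
    ⟨fun ξ => (e1.g_hi ξ).trans (mul_le_mul_of_nonneg_right b2 (by positivity)),
      fun ξ => (e1.g_lo ξ).trans (mul_le_mul_of_nonneg_right b2 (m.g_nonneg y ξ)),
      fun ξ => (e1.up_hi ξ).trans (mul_le_mul_of_nonneg_right b2 (by positivity)),
      fun ξ => (e1.up_lo ξ).trans (mul_le_mul_of_nonneg_right b2 (m.up_nonneg y ξ)),
      e1.dens_hi.trans b2, e1.dens_lo.trans (mul_le_mul_of_nonneg_right b2 (m.dens_pos y).le)⟩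
    Lr r1 (H.u0 p) (k.1.trans (mul_le_mul_of_nonneg_right b3 (H.φ0 B1 p).le)) (k.2.1.trans b3)
    k.2.2.1 (k.2.2.2.trans b3) (fun i => P366Z.pd_comp
      ((H.smF.differentiable (by simp)) (u p)).hasDerivAt ((H.smu.lc he).diff y) i) ?_ ?_ ?_
    ((H.Tb p).trans b3) ?_
  · rw [ip_rep he g (df _) (df _)]
    exact (H.df p).trans b3
  · rw [← rep_hess H.met he H.smf.two, normSq_rep he]
    refine (H.d2f p).trans ?_
    rw [mul_pow, mul_comm (L ^ 2), mul_div_mul_right _ _ (by positivity)]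
    gcongr
  · rw [normSq_rep he]
    exact (H.Kb p).trans b3
  · rw [← repV_zz H.met he K H.sφ.diff H.smf.two T du, ← rep_gb he g _ df, ← loc_ww he g _ df,
      ip_rep he _ (du _) (du _), dv_rep H.met he ((H.sz hn B1).dv (by simp) _)]
    have k1 : B * A ^ 2 * L ^ 2 * u p ^ 2 ≤ B * A ^ 2 * L ^ 2 * u p ^ 2 / (L * r) ^ 2 :=
      le_div_self (by positivity) (by positivity) (pow_le_one₀ Lr.le r1)
    have k2 := mul_le_mul_of_nonneg_right b3 (sq_nonneg (u p))
    have k3 := H.pw hn B1 p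
    have k4 := H.all p
    simp only [loc, ← hp]
    linarith

end Vale.Agent.P366M.Y.C
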